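import Vale.Agent.P236X.Mil

/-!
# P236X: the checker for the certificates of exactness
-/

namespace Vale.Agent.P236X

open Vale.Agent.P236B Vale.Agent.P257.H80 MvPolynomial Finset

/-! ### loops -/

/-- bounded universal quantifier -/
noncomputable def allN (n : ℕ) (f : ℕ → Bool) : Bool :=
  Nat.rec true (fun i ih => Bool.rec false ih (f i)) n

theorem allN_spec {n : ℕ} {f : ℕ → Bool} (h : allN n f = true) : ∀ i < n, f i = true := by
  induction n with
  | zero => exact fun i hi => absurd hi (Nat.not_lt_zero i)
  | succ n ih =>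
    have h0 : allN (n + 1) f = (f n && allN n f) := by
      change (Bool.rec false (allN n f) (f n) : Bool) = _
      cases f n <;> rfl
    obtain ⟨h1, h2⟩ := Bool.and_eq_true_iff.1 (h0 ▸ h)
    exact fun i hi => (Nat.lt_succ_iff_lt_or_eq.1 hi).elim (ih h2 i) fun e => e ▸ h1

/-- loop over the monomials of degree `e` -/
noncomputable def allM (e : ℕ) (f : ℕ → ℕ → ℕ → ℕ → Bool) : Bool :=
  allN (Nat.succ (Nat.div e (nat_lit 40))) fun d =>
    frc (Nat.sub e (Nat.mul (nat_lit 40) d)) fun e4 =>
      allN (Nat.succ (Nat.div e4 (nat_lit 13))) fun c =>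
        frc (Nat.sub e4 (Nat.mul (nat_lit 13) c)) fun e3 =>
          allN (Nat.succ (Nat.div e3 (nat_lit 4))) fun b =>
            frc (Nat.sub e3 (Nat.mul (nat_lit 4) b)) fun a => f a b c d

/-- sum over the monomials of degree `e` -/
noncomputable def sumM (e : ℕ) (f : ℕ → ℕ → ℕ → ℕ → ℕ) : ℕ :=
  sumN (e / 40 + 1) fun d => sumN ((e - 40 * d) / 13 + 1) fun c =>
    sumN ((e - 40 * d - 13 * c) / 4 + 1) fun b => f (e - 40 * d - 13 * c - 4 * b) b c d

theorem allM_spec {e : ℕ} {f : ℕ → ℕ → ℕ → ℕ → Bool} (h : allM e f = true) {a b c d : ℕ}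
    (he : a + 4 * b + 13 * c + 40 * d = e) : f a b c d = true := by
  simp only [allM, frc_eq] at h
  have : f (e - 40 * d - 13 * c - 4 * b) b c d = true :=
    allN_spec (allN_spec (allN_spec h d (show d < e / 40 + 1 by omega)) c
      (show c < (e - 40 * d) / 13 + 1 by omega)) b
        (show b < (e - 40 * d - 13 * c) / 4 + 1 by omega)
  rwa [show e - 40 * d - 13 * c - 4 * b = a by omega] at this

/-- the monomials of degree `e` -/
def IM (e : ℕ) : Finset (Σ _ : ℕ, Σ _ : ℕ, ℕ) :=
  (range (e / 40 + 1)).sigma fun d => (range ((e - 40 * d) / 13 + 1)).sigma fun c =>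
    range ((e - 40 * d - 13 * c) / 4 + 1)

theorem mem_IM {e : ℕ} {x : Σ _ : ℕ, Σ _ : ℕ, ℕ} :
    x ∈ IM e ↔ 4 * x.2.2 + 13 * x.2.1 + 40 * x.1 ≤ e := by
  simp only [IM, Finset.mem_sigma, Finset.mem_range]
  omega

theorem sumM_eq (e : ℕ) (f : ℕ → ℕ → ℕ → ℕ → ℕ) : sumM e f =
    ∑ x ∈ IM e, f (e - 40 * x.1 - 13 * x.2.1 - 4 * x.2.2) x.2.2 x.2.1 x.1 := by
  simp only [sumM, sumN_eq, IM, Finset.sum_sigma]

/-! ### tables -/

/-- the bit `n` of `m` -/
def bit (m n : ℕ) : Bool := Nat.beq (Nat.land (nat_lit 1) (Nat.shiftRight m n)) (nat_lit 1)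

/-- the binomial coefficients which are prime to three -/
def TB : ℕ := 8796965290836493855417049597427345292669391865869754497000530150602529692756723315555146367293805758620366774648286796721673682473697257356365374028563691510112583729427797578368039174917021224551829766485211403912156526991206538842794330390251811103304283310110124617148522751218201821820669114630696121059175918033618129621800579796377181222708508290332718140352198190323419227024069906517246590674712497699412777400633635194660595676039135017185487021167039666175393520672434302587080154155081403863869873050025557014766291935285475400104041476772975897803075657381895892914459284534518043126889424109878533442087400218771621166332495526817042763575412321936581311093241109772384836055746629998402412608174456977455886332166887596855473681282979636254414443375610532344422672048326827551828111081594117624985891845452337052272944208062625714303231880803522429065651741471390936041364549529274417133181819045418363914363415595432570232829391353754272409087302486993564920854035179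192079521299729627726834519345816123523802622441914553819047244090977319141433075690168913847111961001768156496046474651421167211064213581244826225347792186791659251491308999291578649793578671127400473470628869648829269326454756227010750386699273422516186582632807513840520420746073106673571357609312087664639818721182691963639203223422400514338582268695405783425020056683490760516019731875892228806951079777193460758289348575334314445304359596897337185859258471478349019856583112205518405536998895828607903450275332674829275738405342156269938013807100731262005273918550273252525471540993357582339819378440927572174100227079969990128667087099096948531876349943525834891556591412738280401693571573342216672952938289105304279474209248648881849201957399766004258694478819272126116553989143520793641464387445523544993384794046685629192004044776859260606021122170999161353707398005631471596445541367970176402428020192204065246921733690409110715747587950117217599662218105091413374999389009881282534172688256691150765402769510271499831440561422284272331006598871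318612137544809651985487449033120279155997746154629255035073744044439781491424747853303395578818485308155828885613544419126573986153260576274307897139069806827406857404372081893948084993137221735439260264154183268812187824001660812142767872844968864326320993958399039128869377522150432309651770695812741848626173911907914757726885548065187214208683674744671602183830548956378020679698925443366414360857599630988466229138079381737219137164564478056787060403385606736535260007828296759336818901523361081998727009487837343632362561494485013383345996703100877414184865116799787970156866155930256437509960094534758182187714854227707539351625451153044000826707300146777545101021281491415197194971388012658215340038209413749957394086079685112720616140478857586790798037010505399965935675793756342700997973816542907415242088048959190382327928649437823800658913714955997345279093408760385898747639069793672784287433521226692716439280518600950206849468416908056592460755215334534140802113375434360601832414618911740818519222753274694117698152090808301393664540599801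807313654768826039129462801211482225301370942249786742240681422440313383919649452458207704074236849927994081014612724939643318185952964274263558562643642468285626381407178413931724024746899061190484502559594691713494588030722678741187018709991426249251447110503271740568399825888071007935802703422802155793243361072347944339286402355680774753763042232093388935525717983629114014012260737773935713081618888158179123919651273981846861342476295432520756405791964255845500165133220199407560121834356791492317615023706174911963830090478465109127590149847158011415486163196887362880417313394241754114631023947488705973839647936847637365606403023998340592214942659383679795968884170301843090626952825896253538013892895477783049961651060430311381792819485826335971542200864158671470175727220574225996425033048070388478930532253910159341305572234342378658788520409355192392815481943086413950183848362880520992080976291120732013069856298234473339832020036123154401449193689796251330759991763160059341058916287545329349568724606243128320697080396054867813475894122926157011909356726476316845843909493302406632778505087964624021851256294471332170080069330031569819284746310622618927944270331630132498823637113534111795240184858836854754482173899408857382383117974177781380675687155253296986840297930972594808518643168553636537440206130668893013678146708209139452546007024016252347152082645059742429951558783581845182427065789432662597227479159621006478437328337461043069784611712649784575701859268761979125844223972730377283715051666371615292742041448254594465319279426592047103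

/-- the numbers of monomials -/
def PT : ℕ := 24692864386113043560332302908077315677269631007557941026050231791407943186846916153133070889863445799311704999588094871414531454442568735315905395535148854893407722776600413068876593869742230180265879918495194538854929826796485485827580538320686381038902998936031733724341979646603413074955348637816768430760964748377184624766401185466324204194794049565524684016683918710153015172735431710560023412271606512241946748180272352994648533177736131801344129777236296756470691908746372938774130645112676118354590208298164907290862950708625221266361618669204332081446807388905889857601537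

/-- the set of all `n` such that the binomial coefficient `(n, k)` is prime to three -/
def tb (k : ℕ) : ℕ := Nat.mod (Nat.shiftRight TB (Nat.mul 128 k)) (Nat.pow 2 128)

/-- the number of monomials of degree `e` -/
def pt (e : ℕ) : ℕ := Nat.mod (Nat.shiftRight PT (Nat.mul 16 e)) 65536

theorem chk_tb : allN 121 (fun k => allN 121 fun n => !bit (tb k) n ||
    !Nat.beq (ch n k % 3) 0) = true := by decide +kernel

theorem chk_pt : allN 121 (fun e => Nat.beq (sumM e fun _ _ _ _ => 1) (pt e)) = true := by
  decide +kernel

theorem tb_spec {k n : ℕ} (hk : k ≤ 120) (hn : n ≤ 120) (h : bit (tb k) n = true) :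
    k ≤ n ∧ ((n.choose k : ℕ) : ZMod 3) ≠ 0 := by
  have h1 := allN_spec (allN_spec chk_tb k (by omega)) n (by omega)
  rw [h, Bool.not_true, Bool.false_or, Bool.not_eq_true'] at h1
  have h2 : ((n.choose k : ℕ) : ZMod 3) ≠ 0 := fun h2 => Nat.ne_of_beq_eq_false h1
    (Nat.mod_eq_zero_of_dvd ((ZMod.natCast_eq_zero_iff _ _).1 ((ch_eq n k).trans h2)))
  exact ⟨not_lt.1 fun h3 => h2 (by rw [Nat.choose_eq_zero_of_lt h3, Nat.cast_zero]), h2⟩

theorem card_IM {e : ℕ} (he : e ≤ 120) : (IM e).card = pt e := by
  rw [← Nat.eq_of_beq_eq_true (allN_spec chk_pt e (by omega)), sumM_eq, Finset.card_eq_sum_ones]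

/-! ### certificates -/

/-- An element `∑ c • dl (t ^ l) * a (g', ·)` with the exponent of its leading term. -/
structure El where
  /-- exponent of `t₁` -/
  a : ℕ
  /-- exponent of `t₂` -/
  b : ℕ
  /-- exponent of `t₃` -/
  c : ℕ
  /-- exponent of `t₄` -/
  d : ℕ
  /-- the list of the `(c, g', l)` -/
  u : List (ℕ × ℕ × ℕ × ℕ × ℕ × ℕ)

/-- the value of an element on a monomial -/
noncomputable def entN (v : ℕ → ℕ → ℕ → ℕ → ℕ → ℕ → ℕ) (u : List (ℕ × ℕ × ℕ × ℕ × ℕ × ℕ))
    (i a b c d : ℕ) : ℕ :=
  List.rec 0 (fun t _ ih => Nat.add (Nat.mul t.1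
    (mil (v t.2.1 i) t.2.2.1 t.2.2.2.1 t.2.2.2.2.1 t.2.2.2.2.2 a b c d)) ih) u

/-- the value is zero -/
noncomputable def isZ (v : ℕ → ℕ → ℕ → ℕ → ℕ → ℕ → ℕ) (u : List (ℕ × ℕ × ℕ × ℕ × ℕ × ℕ))
    (i a b c d : ℕ) : Bool := Nat.beq (Nat.mod (entN v u i a b c d) 3) 0

/-- the check of the leading term -/
noncomputable def pivOk (v : ℕ → ℕ → ℕ → ℕ → ℕ → ℕ → ℕ) (n n' : ℕ) (dg : ℕ → ℕ) (i : ℕ)
    (x : El) : Bool :=
  frc (dg i + x.a + 4 * x.b + 13 * x.c + 40 * x.d) fun e =>
    x.u.all (fun t => Nat.blt t.2.1 n') && Nat.ble e 120 && !isZ v x.u i x.a x.b x.c x.d &&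
      allN n fun i' => Nat.blt i' i || Nat.blt e (dg i') || allM (e - dg i') fun a b c d =>
        (Nat.beq i' i && Nat.ble (x.b + 32 * x.c + 512 * x.d) (b + 32 * c + 512 * d)) ||
          isZ v x.u i' a b c d

/-- the monomial is a multiple of the leading term of one of the elements -/
noncomputable def cov (l : List El) (a b c d : ℕ) : Bool :=
  List.rec false (fun x _ ih => (bit (tb x.a) a && bit (tb x.b) b && bit (tb x.c) c &&
    bit (tb x.d) d) || ih) l

theorem cov_spec {l : List El} {a b c d : ℕ} (h : cov l a b c d = true) : ∃ x ∈ l,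
    bit (tb x.a) a = true ∧ bit (tb x.b) b = true ∧ bit (tb x.c) c = true ∧
      bit (tb x.d) d = true := by
  induction l with
  | nil => exact absurd h Bool.false_ne_true
  | cons x l ih =>
    rcases Bool.or_eq_true_iff.1 h with h1 | h1
    · simp only [Bool.and_eq_true] at h1
      exact ⟨x, List.mem_cons_self, h1.1.1.1, h1.1.1.2, h1.1.2, h1.2⟩
    · obtain ⟨y, hy, h2⟩ := ih h1
      exact ⟨y, List.mem_cons_of_mem _ hy, h2⟩

/-- the elements which pass the test for one exponent -/
noncomputable def flt (f : El → ℕ) (n : ℕ) (l : List El) : List El :=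
  List.rec [] (fun x _ ih => Bool.rec ih (x :: ih) (bit (tb (f x)) n)) l

/-- the test for the first two exponents -/
noncomputable def any2 (l : List El) (a b : ℕ) : ℕ :=
  List.rec (nat_lit 0) (fun x _ ih =>
    Bool.rec ih (Bool.rec ih (nat_lit 1) (bit (tb x.b) b)) (bit (tb x.a) a)) l

/-- zero for the empty list -/
noncomputable def nz (l : List El) (k : ℕ) : ℕ := List.rec (nat_lit 0) (fun _ _ _ => k) l

theorem nz_eq {l : List El} {k : ℕ} (h : l = [] → k = 0) : nz l k = k := by
  cases l
  · exact (h rfl).symm
  · rfl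

theorem any2_flt (l : List El) (a b c d : ℕ) :
    any2 (flt El.c c (flt El.d d l)) a b = cond (cov l a b c d) 1 0 := by
  induction l with
  | nil => rfl
  | cons x l ih =>
    change any2 (flt El.c c (Bool.rec _ (x :: flt El.d d l) _)) a b = cond (_ || cov l a b c d) 1 0
    cases bit (tb x.d) d
    · rw [Bool.and_false, Bool.false_or, ← ih]
      rfl
    · change any2 (Bool.rec _ (x :: flt El.c c (flt El.d d l)) _) a b = _
      cases bit (tb x.c) c
      · rw [Bool.and_false, Bool.false_and, Bool.false_or, ← ih]
        rfl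
      · change (Bool.rec (any2 (flt El.c c (flt El.d d l)) a b) (Bool.rec
          (any2 (flt El.c c (flt El.d d l)) a b) 1 (bit (tb x.b) b)) (bit (tb x.a) a) : ℕ) = _
        cases bit (tb x.a) a <;> cases bit (tb x.b) b <;> first | exact ih | rfl

/-- the number of leading terms for one generator -/
noncomputable def cntG (l : List El) (e : ℕ) : ℕ :=
  sumN (Nat.succ (Nat.div e (nat_lit 40))) fun d =>
    frc (Nat.sub e (Nat.mul (nat_lit 40) d)) fun e4 => (fun l4 => nz l4
      (sumN (Nat.succ (Nat.div e4 (nat_lit 13))) fun c =>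
        frc (Nat.sub e4 (Nat.mul (nat_lit 13) c)) fun e3 => (fun l3 => nz l3
          (sumN (Nat.succ (Nat.div e3 (nat_lit 4))) fun b =>
            any2 l3 (Nat.sub e3 (Nat.mul (nat_lit 4) b)) b)) (flt El.c c l4))) (flt El.d d l)

theorem cntG_eq (l : List El) (e : ℕ) :
    cntG l e = sumM e fun a b c d => cond (cov l a b c d) 1 0 := by
  have h1 : ∀ (l : List El) n (f : ℕ → ℕ), nz l (sumN n fun b => any2 l (f b) b) =
      sumN n fun b => any2 l (f b) b := fun l n f => nz_eq fun h => by
    rw [h, sumN_eq]
    exact Finset.sum_eq_zero fun _ _ => rfl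
  simp only [cntG, frc_eq, h1, sumM, ← any2_flt]
  refine congrArg _ (funext fun d => nz_eq fun h => ?_)
  simp only [h, sumN_eq]
  exact Finset.sum_eq_zero fun _ _ => Finset.sum_eq_zero fun _ _ => rfl

/-- the number of leading terms in degree `e` -/
noncomputable def cnt (n : ℕ) (dg : ℕ → ℕ) (gb : ℕ → List El) (e : ℕ) : ℕ :=
  sumN n fun i => Bool.rec (nat_lit 0) (nz (gb i) (frc (Nat.sub e (dg i)) (cntG (gb i))))
    (Nat.ble (dg i) e)

/-- the dimension in degree `e` -/
noncomputable def tot (n : ℕ) (dg : ℕ → ℕ) (e : ℕ) : ℕ :=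
  sumN n fun i => cond (Nat.blt e (dg i)) 0 (pt (e - dg i))

variable {G : Type} [Fintype G] [DecidableEq G] {R : Res 3 G} {gen : ℕ → G} {j n n' T : ℕ}
  {dg : ℕ → ℕ} {v : ℕ → ℕ → ℕ → ℕ → ℕ → ℕ → ℕ}

/-- The values of the functionals modulo all `v_i`. -/
def Vl (R : Res 3 G) (gen : ℕ → G) (j n n' : ℕ) (v : ℕ → ℕ → ℕ → ℕ → ℕ → ℕ → ℕ) : Prop :=
  ∀ i' < n', ∀ i < n, ∀ a b c d,
    coeff 0 (R.a j (gen i') (gen i) (mk4 a b c d)) = (v i' i a b c d : ZMod 3)

/-- The degrees of the generators. -/
structure Dg (R : Res 3 G) (gen : ℕ → G) (j n T : ℕ) (dg : ℕ → ℕ) : Prop where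
  deg : ∀ i < n, R.deg j (gen i) = 2 * dg i
  all : ∀ g, R.deg j g ≤ 2 * T → ∃ i < n, gen i = g

/-- the meaning of the list of terms -/
noncomputable def uS (gen : ℕ → G) (u : List (ℕ × ℕ × ℕ × ℕ × ℕ × ℕ)) :
    List (ZMod 3 × G × (ℕ →₀ ℕ)) :=
  u.map fun t => (t.1, gen t.2.1, mk4 t.2.2.1 t.2.2.2.1 t.2.2.2.2.1 t.2.2.2.2.2)

omit [Fintype G] [DecidableEq G] in
theorem isZ_iff (hv : Vl R gen j n n' v) {u : List (ℕ × ℕ × ℕ × ℕ × ℕ × ℕ)}
    (hu : u.all (fun t => Nat.blt t.2.1 n') = true) {i : ℕ} (hi : i < n) {a b c d : ℕ} :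
    isZ v u i a b c d = true ↔ ent R j (uS gen u) (gen i) (mk4 a b c d) = 0 := by
  have h : (entN v u i a b c d : ZMod 3) = ent R j (uS gen u) (gen i) (mk4 a b c d) := by
    induction u with
    | nil => rfl
    | cons t u ih =>
      rw [List.all_cons, Bool.and_eq_true, Nat.blt_eq] at hu
      change ((Nat.add (Nat.mul _ _) (entN v u i a b c d) : ℕ) : ZMod 3) =
        _ * coeff _ _ + ent R j _ _ _
      rw [Nat.add_eq, Nat.mul_eq, Nat.cast_add, Nat.cast_mul, ih hu.2, mil_eq (hv _ hu.1 i hi)]
      rfl
  rw [← h, isZ, Nat.beq_eq, ZMod.natCast_eq_zero_iff, Nat.dvd_iff_mod_eq_zero]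
  rfl

omit [Fintype G] [DecidableEq G] in
theorem pivOk_spec (hd : Dg R gen j n T dg) (hv : Vl R gen j n n' v) {i : ℕ} (hi : i < n) {x : El}
    (h : pivOk v n n' dg i x = true) : dg i + x.a + 4 * x.b + 13 * x.c + 40 * x.d ≤ 120 ∧
      Piv R gen n j (uS gen x.u) i (mk4 x.a x.b x.c x.d) := by
  simp only [pivOk, frc_eq, Bool.and_eq_true, Nat.ble_eq, Bool.not_eq_true'] at h
  obtain ⟨⟨⟨hu, h1⟩, h3⟩, h4⟩ := h
  refine ⟨h1, fun e => ?_, fun i' hi' K h5 h6 => ?_⟩
  · rw [(isZ_iff hv hu hi).2 e] at h3
    exact Bool.noConfusion h3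
  · rw [hd.deg i hi, hd.deg i' hi', wE_mk4] at h5
    obtain ⟨a, b, c, d, rfl⟩ := exists_mk4 (E := K) (by omega)
    rw [wE_mk4] at h5
    rw [ph_mk4, ph_mk4] at h6
    have h7 := allN_spec h4 i' hi'
    simp only [Bool.or_eq_true, Nat.blt_eq] at h7
    have h8 := allM_spec (h7.resolve_left (by omega)) (a := a) (b := b) (c := c) (d := d) (by omega)
    simp only [Bool.or_eq_true, Bool.and_eq_true, Nat.beq_eq, Nat.ble_eq] at h8
    exact (isZ_iff hv hu hi').1 (h8.resolve_left (by omega))

/-- the basis in degree `e` -/
def IC (n : ℕ) (dg : ℕ → ℕ) (e : ℕ) : Finset (Σ _ : ℕ, Σ _ : ℕ, Σ _ : ℕ, ℕ) :=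
  (range n).sigma fun i => if e < dg i then ∅ else IM (e - dg i)

theorem mem_IC {e : ℕ} {x : Σ _ : ℕ, Σ _ : ℕ, Σ _ : ℕ, ℕ} : x ∈ IC n dg e ↔
    x.1 < n ∧ dg x.1 + 4 * x.2.2.2 + 13 * x.2.2.1 + 40 * x.2.1 ≤ e := by
  rw [IC, Finset.mem_sigma, Finset.mem_range]
  split_ifs with h
  · simp only [Finset.notMem_empty, and_false, false_iff]
    omega
  · rw [mem_IM]
    omega

/-- the exponent of a basis element -/
noncomputable def exC (dg : ℕ → ℕ) (e : ℕ) (x : Σ _ : ℕ, Σ _ : ℕ, Σ _ : ℕ, ℕ) : ℕ →₀ ℕ :=
  mk4 (e - dg x.1 - 40 * x.2.1 - 13 * x.2.2.1 - 4 * x.2.2.2) x.2.2.2 x.2.2.1 x.2.1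

theorem dm_tot (hd : Dg R gen j n T dg) {e : ℕ} (he : e ≤ T) (hT : T ≤ 120) :
    Dm (R.PV j (2 * e)) (tot n dg e) := by
  have h1 : (IC n dg e).card = tot n dg e := by
    rw [IC, Finset.card_sigma, tot, sumN_eq]
    refine Finset.sum_congr rfl fun i _ => ?_
    split_ifs with h
    · rw [Nat.blt_eq.mpr h]; rfl
    · rw [Bool.eq_false_iff.2 (mt Nat.blt_eq.mp h), card_IM (by omega)]; rfl
  rw [← h1]
  refine dm_PV _ (fun x => gen x.1) (exC dg e) fun g E h => ?_
  obtain ⟨i, hi, rfl⟩ := hd.all g (by omega)
  obtain ⟨a, b, c, d, rfl⟩ := exists_mk4 (E := E) (by omega)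
  rw [hd.deg i hi, wE_mk4] at h
  exact ⟨⟨i, d, c, b⟩, mem_IC.2 ⟨hi, by dsimp only; omega⟩, rfl,
    mk4_inj.2 ⟨by dsimp only; omega, rfl, rfl, rfl⟩⟩

theorem dm_odd (hd : Dg R gen j n T dg) {e : ℕ} (he : 2 * e + 1 ≤ 2 * T) (hT : T ≤ 120) :
    Dm (R.PV j (2 * e + 1)) 0 :=
  dm_PV (∅ : Finset ℕ) gen (fun _ => 0) fun g E h => by
    obtain ⟨i, hi, rfl⟩ := hd.all g (by omega)
    obtain ⟨a, b, c, d, rfl⟩ := exists_mk4 (E := E) (by omega)
    rw [hd.deg i hi, wE_mk4] at h
    omega

theorem rk_cnt (hd : Dg R gen j n T dg) (hv : Vl R gen j n n' v) {gb : ℕ → List El}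
    (h : allN n (fun i => (gb i).all (pivOk v n n' dg i)) = true) {e : ℕ} (he : e ≤ 120) :
    Rk (D R j) (R.PV j (2 * e)) (cnt n dg gb e) := by
  have h1 : ((IC n dg e).filter fun x => cov (gb x.1) (e - dg x.1 - 40 * x.2.1 - 13 * x.2.2.1 -
      4 * x.2.2.2) x.2.2.2 x.2.2.1 x.2.1 = true).card = cnt n dg gb e := by
    rw [Finset.card_filter, IC, Finset.sum_sigma, cnt, sumN_eq]
    refine Finset.sum_congr rfl fun i _ => ?_
    split_ifs with h
    · rw [Bool.eq_false_iff.2 (mt Nat.le_of_ble_eq_true (not_le.2 h))]; rfl
    · rw [Nat.ble_eq_true_of_le (not_lt.1 h), frc_eq, cntG_eq, sumM_eq]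
      simp only [← Bool.cond_eq_ite]
      refine (nz_eq fun h2 => ?_).symm
      rw [h2]
      exact Finset.sum_eq_zero fun x _ => rfl
  rw [← h1]
  refine rk_of_led (gen := gen) (n := n) _ (fun x => x.1) (exC dg e) (fun x hx => ?_)
    (fun x hx => ?_) (fun x hx => ?_) (fun x hx y hy h2 h3 => ?_) fun x hx => ?_ <;>
    obtain ⟨hx, hc⟩ := Finset.mem_filter.1 hx <;> obtain ⟨hx, hx'⟩ := mem_IC.1 hx
  · exact hx
  · rw [exC, wE_mk4, hd.deg _ hx]
    omega
  · rw [exC, ph_mk4]
    omega
  · obtain ⟨-, hy⟩ := mem_IC.1 (Finset.mem_filter.1 hy).1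
    rw [exC, exC, ph_mk4, ph_mk4] at h3
    obtain ⟨i, d, c, b⟩ := x
    obtain ⟨i', d', c', b'⟩ := y
    dsimp only at *
    have : b < 32 ∧ b' < 32 ∧ c < 16 ∧ c' < 16 := by omega
    obtain ⟨rfl, rfl, rfl⟩ : d = d' ∧ c = c' ∧ b = b' := by omega
    rw [h2]
  · obtain ⟨z, hz, c1, c2, c3, c4⟩ := cov_spec hc
    obtain ⟨h2, h3⟩ := pivOk_spec hd hv hx (List.all_eq_true.1 (allN_spec h _ hx) z hz)
    have d1 := tb_spec (by omega) (by omega) c1
    have d2 := tb_spec (by omega) (by omega) c2
    have d3 := tb_spec (by omega) (by omega) c3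
    have d4 := tb_spec (by omega) (by omega) c4
    refine h3.led hx d1.1 d2.1 d3.1 d4.1
      (mul_ne_zero (mul_ne_zero (mul_ne_zero d1.2 d2.2) d3.2) d4.2) ?_
    rw [wE_mk4, hd.deg _ hx]
    omega

/-- lower bounds for the ranks -/
def St (R : Res 3 G) (j T : ℕ) (r : ℕ → ℕ) : Prop :=
  ∀ e ≤ T, Rk (D R j) (R.PV j (2 * e)) (r e)

theorem st_of_chk (hT : T ≤ 120) (hd : Dg R gen j n T dg) (hv : Vl R gen j n n' v)
    {gb : ℕ → List El} {r : ℕ → ℕ} (h : allN n (fun i => (gb i).all (pivOk v n n' dg i)) = true)
    (h' : allN (T + 1) (fun e => Nat.beq (cnt n dg gb e) (r e)) = true) : St R j T r :=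
  fun e he => Nat.eq_of_beq_eq_true (allN_spec h' e (by omega)) ▸ rk_cnt hd hv h (by omega)

theorem xc_succ_of {N : ℕ} (hT : T ≤ 120) (hN : 0 < N) (hQ : R.Q N j (2 * T)) {r r' : ℕ → ℕ}
    (h1 : St R j T r) (h2 : St R (j + 1) T r') (hd : Dg R gen (j + 1) n T dg)
    (h : allN (T + 1) (fun e => Nat.ble (tot n dg e) (r e + r' e)) = true) :
    ∀ e ≤ 2 * T, R.Xc (j + 1) e := fun e he => by
  have hQ' : R.Q N j e := fun g'' g E h => hQ g'' g E (h.trans he)
  obtain ⟨e, rfl | rfl⟩ := Nat.even_or_odd' e
  · exact xc_succ hN hQ' (h1 e (by omega)) (h2 e (by omega)) (dm_tot hd (by omega) hT)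
      (Nat.le_of_ble_eq_true (allN_spec h e (by omega)))
  · exact xc_succ hN hQ' (rk_zero _ _) (rk_zero _ _) (dm_odd hd he hT) le_rfl

theorem xc_zero_of (hT : T ≤ 120) {r : ℕ → ℕ} (h2 : St R 0 T r) (hd : Dg R gen 0 n T dg)
    (h : allN T (fun e => Nat.ble (tot n dg (e + 1)) (r (e + 1))) = true) :
    ∀ e ≤ 2 * T, R.Xc 0 e := fun e he => by
  obtain ⟨e, rfl | rfl⟩ := Nat.even_or_odd' e
  · rcases e with _ | e
    · exact fun h => absurd h (lt_irrefl 0)
    · exact xc_zero (h2 _ (by omega)) (dm_tot hd (by omega) hT)
        (Nat.le_of_ble_eq_true (allN_spec h e (by omega)))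
  · exact xc_zero (rk_zero _ _) (dm_odd hd he hT) le_rfl

end Vale.Agent.P236X
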