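import Vale.Agent.P236B.Col

/-!
# P236X: the coproduct modulo all `v_i` and its leading terms
-/

noncomputable section

namespace Vale.Agent.P236X

open Vale.Agent.P236B Vale.Agent.P257.H80 MvPolynomial Finset

section v0

variable {B : Type} [CommRing B]

theorem sum_mm (n : ℕ) (f : ℕ → B) : ∑ j ∈ range (n + 1),
    ((3 : ℕ) : B) ^ j * (vmk 0 : VPt B) (mm 3 (n - j)) * f j ^ 3 ^ (n - j) = 3 ^ n * f n := by
  rw [Finset.sum_range_succ, Finset.sum_eq_zero fun j hj => ?_, zero_add, Nat.sub_self, mm_zero,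
    map_one, mul_one, pow_zero, pow_one, Nat.cast_ofNat]
  obtain ⟨m, hm⟩ : ∃ m, n - j = m + 1 := ⟨n - j - 1, by have := Finset.mem_range.1 hj; omega⟩
  rw [hm, mm_succ, map_sum, Finset.sum_eq_zero fun i _ => by simp, mul_zero, zero_mul]

theorem three_ne : (3 : MvPolynomial (ℕ × ℕ) ℤ_[3]) ≠ 0 := by
  rw [← map_ofNat C 3]
  exact fun e => (by norm_num : (3 : ℤ_[3]) ≠ 0) (C_injective _ _ (e.trans (map_zero _).symm))

theorem comp_v0 {S : Type} [CommRing S] (θ : B →+* S) : θ.comp (vmk 0) = vmk 0 :=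
  VPt.ext fun k => by simp

theorem exists_lift [ZP 3 B] (t s : ℕ → B) :
    ∃ θ : MvPolynomial (ℕ × ℕ) ℤ_[3] →+* B,
      (fun k => θ (X (0, k))) = t ∧ (fun k => θ (X (1, k))) = s := by
  obtain ⟨ζ⟩ := ZP.ne (p := 3) (B := B)
  exact ⟨eval₂Hom ζ fun q => if q.1 = 0 then t q.2 else s q.2, funext fun k => eval₂Hom_X' _ _ _,
    funext fun k => eval₂Hom_X' _ _ _⟩

theorem cmp_v0 [ZP 3 B] (t s : ℕ → B) (n : ℕ) : cmp 3 (vmk 0) t s n =
    ∑ k ∈ range (n + 2), tt t (n + 1 - k) * tt s k ^ 3 ^ (n + 1 - k) := by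
  obtain ⟨θ, rfl, rfl⟩ := exists_lift t s
  have h := cmp_mm 3 (vmk 0 : VPt (MvPolynomial (ℕ × ℕ) ℤ_[3])) (fun k => X (0, k))
    (fun k => X (1, k)) (n + 1)
  simp only [sum_mm] at h
  rw [← comp_v0 θ, ← cmp_map]
  simp only [← map_tt, ← map_pow, ← map_mul, ← map_sum]
  refine congrArg θ (mul_left_cancel₀ (pow_ne_zero (n + 1) three_ne) (h.trans ?_))
  rw [Finset.mul_sum]
  refine Finset.sum_congr rfl fun k hk => ?_
  obtain ⟨m, hm⟩ : ∃ m, n + 1 = k + m := ⟨n + 1 - k, by have := Finset.mem_range.1 hk; omega⟩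
  rw [hm, Nat.add_sub_cancel_left, Nat.cast_ofNat]
  ring

theorem tgt_v0 [ZP 3 B] (h3 : (3 : B) = 0) (t : ℕ → B) : tgt 3 (vmk 0) t = vmk 0 := by
  have h1 : ∀ n, ∑ i ∈ range (n + 1), tt t i * tgt 3 (vmk 0) t (X (n - i)) ^ 3 ^ i = 0 := by
    intro n
    obtain ⟨θ, rfl, -⟩ := exists_lift t t
    have h := fun m => tgt_mm 3 (vmk 0 : VPt (MvPolynomial (ℕ × ℕ) ℤ_[3])) (fun k => X (0, k)) m
    simp only [sum_mm] at h
    have h2 := h (n + 1)
    rw [mm_succ, map_sum] at h2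
    simp only [map_mul, map_pow, h, map_natCast] at h2
    have h4 : ∑ i ∈ range (n + 1), tt (fun k => X (0, k)) i *
        tgt 3 (vmk 0 : VPt (MvPolynomial (ℕ × ℕ) ℤ_[3])) (fun k => X (0, k)) (X (n - i)) ^ 3 ^ i =
          3 * X (0, n) := by
      refine mul_left_cancel₀ (pow_ne_zero n three_ne) ?_
      rw [← mul_assoc, ← pow_succ, Finset.mul_sum]
      refine Eq.trans (Finset.sum_congr rfl fun k hk => ?_) h2
      obtain ⟨m, rfl⟩ : ∃ m, n = k + m := ⟨n - k, by have := Finset.mem_range.1 hk; omega⟩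
      rw [Nat.add_sub_cancel_left, Nat.cast_ofNat]
      ring
    have h5 := congrArg θ h4
    rw [map_mul, map_ofNat, h3, zero_mul, map_sum] at h5
    rw [← comp_v0 θ, ← tgt_map]
    simpa only [map_mul, map_pow, map_tt, RingHom.comp_apply] using h5
  refine VPt.ext fun n => ?_
  rw [vmk_X, Pi.zero_apply]
  induction n using Nat.strong_induction_on with
  | _ n ih =>
    have h2 := h1 n
    rwa [Finset.sum_range_succ', Finset.sum_eq_zero fun i hi => by
      rw [ih _ (by have := Finset.mem_range.1 hi; omega), zero_pow (by positivity), mul_zero],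
      zero_add, tt_zero, one_mul, pow_zero, pow_one, Nat.sub_zero] at h2

end v0

/-- polynomials in the `t_i` -/
abbrev P : Type := MvPolynomial ℕ (ZMod 3)

/-- the coproduct -/
def cop : P →+* MvPolynomial ℕ P := gD 3 (vmk 0)

/-- the invariant operator modulo all `v_i` -/
abbrev op0 (a : Fn (ZMod 3)) : P →ₗ[ZMod 3] P := op 3 a (RingHom.id _) (vmk 0)

/-- the coefficient of `t ^ L ⊗ t ^ K` -/
def cc (L K : ℕ →₀ ℕ) (f : MvPolynomial ℕ P) : ZMod 3 := coeff L (coeff K f)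

theorem cop_X (n : ℕ) : cop (X n) = ∑ k ∈ range (n + 2),
    tt (fun k => (C (X k) : MvPolynomial ℕ P)) (n + 1 - k) * tt X k ^ 3 ^ (n + 1 - k) := by
  rw [cop, gD_X, comp_v0, comp_v0, cmp_v0]

theorem op0_apply (a : Fn (ZMod 3)) (f : P) : op0 a f = act a C (vmk 0) (cop f) := by
  rw [op_apply, gT, comp_v0, tgt_v0 (CharP.cast_eq_zero P 3)]
  rfl

theorem coeff_op0 (a : Fn (ZMod 3)) (f : P) (L : ℕ →₀ ℕ) :
    coeff L (op0 a f) = ∑ K ∈ (cop f).support, cc L K (cop f) * coeff 0 (a K) := by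
  rw [op0_apply, act_apply, coeff_sum]
  refine Finset.sum_congr rfl fun K _ => ?_
  rw [kx_zero, mul_comm, coeff_C_mul, mul_comm, cc]

theorem cc_add (L K : ℕ →₀ ℕ) (f g : MvPolynomial ℕ P) :
    cc L K (f + g) = cc L K f + cc L K g := by rw [cc, coeff_add, coeff_add, cc, cc]

theorem cc_mul (L K : ℕ →₀ ℕ) (f g : MvPolynomial ℕ P) : cc L K (f * g) =
    ∑ q ∈ antidiagonal K, ∑ p ∈ antidiagonal L, cc p.1 q.1 f * cc p.2 q.2 g := by
  simp only [cc, coeff_mul, coeff_sum]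

theorem cc_mul_ne {L K : ℕ →₀ ℕ} {f g : MvPolynomial ℕ P} (h : cc L K (f * g) ≠ 0) :
    ∃ L₁ K₁ L₂ K₂, L₁ + L₂ = L ∧ K₁ + K₂ = K ∧ cc L₁ K₁ f ≠ 0 ∧ cc L₂ K₂ g ≠ 0 := by
  rw [cc_mul] at h
  obtain ⟨q, hq, h⟩ := Finset.exists_ne_zero_of_sum_ne_zero h
  obtain ⟨p, hp, h⟩ := Finset.exists_ne_zero_of_sum_ne_zero h
  exact ⟨_, _, _, _, mem_antidiagonal.1 hp, mem_antidiagonal.1 hq, left_ne_zero_of_mul h,
    right_ne_zero_of_mul h⟩

theorem cc_add_ne {L K : ℕ →₀ ℕ} {f g : MvPolynomial ℕ P} (h : cc L K (f + g) ≠ 0) :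
    cc L K f ≠ 0 ∨ cc L K g ≠ 0 := by
  by_contra! h1
  exact h (by rw [cc_add, h1.1, h1.2, add_zero])

theorem cc_monomial (L K L' K' : ℕ →₀ ℕ) (c : ZMod 3) :
    cc L K (monomial K' (monomial L' c)) = if K' = K ∧ L' = L then c else 0 := by
  rw [cc, coeff_monomial]
  split_ifs with h1 h2 h2
  · rw [coeff_monomial, if_pos h2.2]
  · rw [coeff_monomial, if_neg fun e => h2 ⟨h1, e⟩]
  · exact absurd h2.1 h1
  · rfl

theorem cc_monomial_ne {L K L' K' : ℕ →₀ ℕ} {c : ZMod 3}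
    (h : cc L K (monomial K' (monomial L' c)) ≠ 0) : K' = K ∧ L' = L := by
  rw [cc_monomial] at h
  by_contra h1
  exact h (if_neg h1)

theorem CX_mul (i j l m : ℕ) (c : ℕ) : C (X i) ^ l * X j ^ m * (c : MvPolynomial ℕ P) =
    monomial (Finsupp.single j m) (monomial (Finsupp.single i l) (c : ZMod 3)) := by
  rw [← map_pow, X_pow_eq_monomial, X_pow_eq_monomial, C_mul_monomial, mul_one,
    ← map_natCast (C : P →+* _), ← map_natCast (C : ZMod 3 →+* P), mul_comm, C_mul_monomial,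
    C_mul_monomial, mul_one]

theorem wE_of_cc {L K E : ℕ →₀ ℕ} (h : cc L K (cop (monomial E 1)) ≠ 0) :
    wE 3 L + wE 3 K = wE 3 E := by
  have h1 : FW 3 (wE 3 K) (dl K : Fn (ZMod 3)) := fun F α h => by
    rw [dl] at h
    split_ifs at h with h2
    · rw [coeff_one] at h
      rw [h2, ← not_not.1 (mt (if_neg ·) h), wE, map_zero, Nat.cast_zero, zero_add]
    · exact absurd rfl h
  by_contra h2
  refine h (Eq.trans ?_ (h1.coeff_zero 3 (RingHom.id _) (E' := L) (f := monomial E 1)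
    fun F hF e => h2 ?_))
  · rw [op0_apply, act_dl, cc]
  · rw [coeff_monomial] at hF
    rw [not_not.1 (mt (if_neg ·) hF)]
    exact_mod_cast e.symm

/-! ### the additive part -/

/-- the additive coproduct -/
def cop0 : P →+* MvPolynomial ℕ P := eval₂Hom (C.comp C) fun k => C (X k) + X k

theorem cop0_X (k : ℕ) : cop0 (X k) = C (X k) + X k := eval₂Hom_X' _ _ _

/-- the weights which define the monomial order -/
def phw : ℕ → ℕ
  | 0 => 0
  | 1 => 1
  | 2 => 32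
  | _ => 512

/-- the monomial order -/
abbrev ph (E : ℕ →₀ ℕ) : ℕ := Finsupp.weight phw E

/-- all terms are smaller than `n` -/
def Fl (n : ℕ) (f : MvPolynomial ℕ P) : Prop := ∀ L K, cc L K f ≠ 0 → ph L + ph K < n

theorem Fl.add {n : ℕ} {f g : MvPolynomial ℕ P} (hf : Fl n f) (hg : Fl n g) : Fl n (f + g) :=
  fun L K h => (cc_add_ne h).elim (hf L K) (hg L K)

theorem Fl.mul {a b n : ℕ} {f g : MvPolynomial ℕ P} (hf : Fl a f) (hg : Fl b g)
    (h : a + b ≤ n + 1) : Fl n (f * g) := fun L K h0 => by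
  obtain ⟨L₁, K₁, L₂, K₂, rfl, rfl, h1, h2⟩ := cc_mul_ne h0
  have := hf _ _ h1
  have := hg _ _ h2
  rw [ph, ph, map_add, map_add]
  unfold ph at *
  omega

theorem fl_CX {n i j l m : ℕ} (h : l * phw i + m * phw j < n) :
    Fl n (C (X i) ^ l * X j ^ m) := fun L K h0 => by
  have h1 := CX_mul i j l m 1
  rw [Nat.cast_one, mul_one] at h1
  rw [h1] at h0
  obtain ⟨rfl, rfl⟩ := cc_monomial_ne h0
  rwa [ph, ph, Finsupp.weight_single, Finsupp.weight_single]

/-- multi-homogeneous elements -/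
def Hm (E : ℕ →₀ ℕ) (f : MvPolynomial ℕ P) : Prop := ∀ L K, cc L K f ≠ 0 → L + K = E

theorem Hm.mul {E F : ℕ →₀ ℕ} {f g : MvPolynomial ℕ P} (hf : Hm E f) (hg : Hm F g) :
    Hm (E + F) (f * g) := fun L K h0 => by
  obtain ⟨L₁, K₁, L₂, K₂, rfl, rfl, h1, h2⟩ := cc_mul_ne h0
  rw [← hf _ _ h1, ← hg _ _ h2, add_add_add_comm]

theorem cc_pow (k n : ℕ) (L K : ℕ →₀ ℕ) : cc L K (cop0 (X k ^ n)) = ∑ a ∈ range (n + 1),
    if Finsupp.single k (n - a) = K ∧ Finsupp.single k a = L then (n.choose a : ZMod 3) else 0 := by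
  rw [map_pow, cop0_X, add_pow, cc, coeff_sum, coeff_sum]
  exact Finset.sum_congr rfl fun a _ => by rw [CX_mul, ← cc, cc_monomial]

theorem hm_pow (k n : ℕ) : Hm (Finsupp.single k n) (cop0 (X k ^ n)) := fun L K h => by
  rw [cc_pow] at h
  obtain ⟨a, ha, h⟩ := Finset.exists_ne_zero_of_sum_ne_zero h
  obtain ⟨rfl, rfl⟩ := not_not.1 (mt (if_neg ·) h)
  rw [← Finsupp.single_add, Nat.add_sub_cancel' (Nat.lt_succ_iff.1 (Finset.mem_range.1 ha))]

theorem cc_pow_single (k l m : ℕ) : cc (Finsupp.single k l) (Finsupp.single k m)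
    (cop0 (X k ^ (l + m))) = ((l + m).choose l : ℕ) := by
  rw [cc_pow, Finset.sum_eq_single l (fun a _ h => if_neg fun e =>
    h (Finsupp.single_injective k e.2)) fun h => absurd (Finset.mem_range.2 (by omega)) h,
    Nat.add_sub_cancel_left, if_pos ⟨rfl, rfl⟩]

theorem Hm.cc_mul {L₁ K₁ L₂ K₂ : ℕ →₀ ℕ} {f g : MvPolynomial ℕ P} (hf : Hm (L₁ + K₁) f)
    (hg : Hm (L₂ + K₂) g) (hd : ∀ i, L₁ i + K₁ i = 0 ∨ L₂ i + K₂ i = 0) :
    cc (L₁ + L₂) (K₁ + K₂) (f * g) = cc L₁ K₁ f * cc L₂ K₂ g := by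
  have h : ∀ q ∈ antidiagonal (K₁ + K₂), ∀ p ∈ antidiagonal (L₁ + L₂),
      cc p.1 q.1 f * cc p.2 q.2 g ≠ 0 → q = (K₁, K₂) ∧ p = (L₁, L₂) := fun q hq p hp h0 => by
    have h1 := fun i => DFunLike.congr_fun (hf _ _ (left_ne_zero_of_mul h0)) i
    have h2 := fun i => DFunLike.congr_fun (hg _ _ (right_ne_zero_of_mul h0)) i
    have h3 := fun i => DFunLike.congr_fun (mem_antidiagonal.1 hq) i
    have h4 := fun i => DFunLike.congr_fun (mem_antidiagonal.1 hp) i
    simp only [Finsupp.add_apply] at h1 h2 h3 h4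
    refine ⟨Prod.ext (Finsupp.ext fun i => ?_) (Finsupp.ext fun i => ?_),
      Prod.ext (Finsupp.ext fun i => ?_) (Finsupp.ext fun i => ?_)⟩ <;>
    · have := h1 i
      have := h2 i
      have := h3 i
      have := h4 i
      have := hd i
      dsimp only
      omega
  rw [P236X.cc_mul, Finset.sum_eq_single_of_mem (K₁, K₂) (mem_antidiagonal.2 rfl) fun q hq e =>
    Finset.sum_eq_zero fun p hp => not_not.1 fun h0 => e (h q hq p hp h0).1,
    Finset.sum_eq_single_of_mem (L₁, L₂) (mem_antidiagonal.2 rfl) fun p hp e =>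
      not_not.1 fun h0 => e (h _ (mem_antidiagonal.2 rfl) p hp h0).2]

/-- the coproduct is additive up to smaller terms -/
def Gd (n : ℕ) (f : P) : Prop := Fl (n + 1) (cop0 f) ∧ Fl n (cop f - cop0 f)

theorem Gd.mul {a b : ℕ} {f g : P} (hf : Gd a f) (hg : Gd b g) : Gd (a + b) (f * g) := by
  refine ⟨by rw [map_mul]; exact hf.1.mul hg.1 (by omega), ?_⟩
  rw [show cop (f * g) - cop0 (f * g) = (cop f - cop0 f) * cop0 g + (cop f - cop0 f) *
    (cop g - cop0 g) + cop0 f * (cop g - cop0 g) by rw [map_mul, map_mul]; ring]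
  exact ((hf.2.mul hg.1 (by omega)).add (hf.2.mul hg.2 (by omega))).add (hf.1.mul hg.2 (by omega))

theorem gd_one : Gd 0 1 := by
  refine ⟨?_, fun L K h => ?_⟩
  · have := fl_CX (n := 1) (i := 0) (j := 0) (l := 0) (m := 0) (by simp)
    rwa [pow_zero, pow_zero, mul_one, ← map_one cop0] at this
  · rw [map_one, map_one, sub_self] at h
    exact absurd rfl h

theorem Gd.pow {a : ℕ} {f : P} (hf : Gd a f) (n : ℕ) : Gd (n * a) (f ^ n) := by
  induction n with
  | zero => simpa using gd_one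
  | succ n ih =>
    rw [pow_succ, Nat.succ_mul]
    exact ih.mul hf

theorem cop_0 : cop (X 0) = C (X 0) + X 0 := by simp [cop_X, Finset.sum_range_succ]

theorem cop_1 : cop (X 1) = C (X 1) + X 1 + C (X 0) * X 0 ^ 3 := by
  simp [cop_X, Finset.sum_range_succ]
  ring

theorem cop_2 : cop (X 2) = C (X 2) + X 2 + (C (X 1) * X 0 ^ 9 + C (X 0) * X 1 ^ 3) := by
  simp [cop_X, Finset.sum_range_succ]
  ring

theorem cop_3 : cop (X 3) =
    C (X 3) + X 3 + (C (X 2) * X 0 ^ 27 + C (X 1) * X 1 ^ 9 + C (X 0) * X 2 ^ 3) := by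
  simp [cop_X, Finset.sum_range_succ]
  ring

theorem gd_X {k : ℕ} (hk : k < 4) : Gd (phw k) (X k) := by
  have h : ∀ n i j m, phw i + m * phw j < n → Fl n (C (X i) * X j ^ m) := fun n i j m h => by
    simpa using fl_CX (l := 1) (by rwa [one_mul])
  refine ⟨?_, ?_⟩
  · rw [cop0_X]
    refine Fl.add ?_ ?_
    · simpa using h (phw k + 1) k 0 0 (by simp)
    · simpa using fl_CX (n := phw k + 1) (i := 0) (j := k) (l := 0) (m := 1) (by simp)
  · rw [cop0_X]
    interval_cases k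
    · rw [cop_0, sub_self]
      exact fun L K h => absurd rfl h
    · rw [cop_1, add_sub_cancel_left]
      exact h _ _ _ _ (by decide)
    · rw [cop_2, add_sub_cancel_left]
      exact (h _ _ _ _ (by decide)).add (h _ _ _ _ (by decide))
    · rw [cop_3, add_sub_cancel_left]
      exact ((h _ _ _ _ (by decide)).add (h _ _ _ _ (by decide))).add (h _ _ _ _ (by decide))

/-! ### monomials in four variables -/

/-- the exponent of `t₁ ^ a t₂ ^ b t₃ ^ c t₄ ^ d` -/
def mk4 (a b c d : ℕ) : ℕ →₀ ℕ :=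
  Finsupp.single 0 a + Finsupp.single 1 b + Finsupp.single 2 c + Finsupp.single 3 d

theorem mk4_add (a b c d a' b' c' d' : ℕ) :
    mk4 a b c d + mk4 a' b' c' d' = mk4 (a + a') (b + b') (c + c') (d + d') := by
  simp only [mk4, Finsupp.single_add]
  abel

theorem mk4_inj {a b c d a' b' c' d' : ℕ} :
    mk4 a b c d = mk4 a' b' c' d' ↔ a = a' ∧ b = b' ∧ c = c' ∧ d = d' := by
  refine ⟨fun h => ?_, fun ⟨h1, h2, h3, h4⟩ => by rw [h1, h2, h3, h4]⟩
  have h0 := DFunLike.congr_fun h 0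
  have h1 := DFunLike.congr_fun h 1
  have h2 := DFunLike.congr_fun h 2
  have h3 := DFunLike.congr_fun h 3
  simp [mk4] at h0 h1 h2 h3
  exact ⟨h0, h1, h2, h3⟩

theorem monomial_mk4 {B : Type} [CommRing B] (a b c d : ℕ) :
    (monomial (mk4 a b c d) 1 : MvPolynomial ℕ B) = X 0 ^ a * X 1 ^ b * X 2 ^ c * X 3 ^ d := by
  simp only [mk4, X_pow_eq_monomial, monomial_mul, mul_one]

theorem wE_mk4 (a b c d : ℕ) : wE 3 (mk4 a b c d) = 2 * (a + 4 * b + 13 * c + 40 * d) := by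
  simp only [wE, mk4, map_add, Finsupp.weight_single, wv, smul_eq_mul]
  omega

theorem ph_mk4 (a b c d : ℕ) : ph (mk4 a b c d) = b + 32 * c + 512 * d := by
  simp only [ph, mk4, map_add, Finsupp.weight_single, phw, smul_eq_mul]
  omega

theorem exists_mk4 {E : ℕ →₀ ℕ} (h : wE 3 E < 242) : ∃ a b c d, E = mk4 a b c d := by
  refine ⟨E 0, E 1, E 2, E 3, Finsupp.ext fun k => ?_⟩
  by_cases hk : k < 4
  · interval_cases k <;> simp [mk4]
  · have h1 : E k = 0 := by
      by_contra h2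
      have h3 := Finsupp.le_weight_of_ne_zero' (wv 3) h2
      have h4 : 3 ^ 5 ≤ 3 ^ (k + 1) := Nat.pow_le_pow_right (by norm_num) (by omega)
      unfold wE at h
      rw [wv] at h3
      omega
    simp only [mk4, h1, Finsupp.add_apply, Finsupp.single_apply]
    split_ifs <;> omega

theorem gd_mk4 (a b c d : ℕ) : Gd (ph (mk4 a b c d)) (monomial (mk4 a b c d) 1) := by
  have := ((((gd_X (k := 0) (by norm_num)).pow a).mul ((gd_X (k := 1) (by norm_num)).pow b)).mul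
    ((gd_X (k := 2) (by norm_num)).pow c)).mul ((gd_X (k := 3) (by norm_num)).pow d)
  rwa [← monomial_mk4, show a * phw 0 + b * phw 1 + c * phw 2 + d * phw 3 = ph (mk4 a b c d) by
    simp only [ph_mk4, phw]; omega] at this

theorem hm_mk4 (a b c d : ℕ) : Hm (mk4 a b c d) (cop0 (monomial (mk4 a b c d) 1)) := by
  rw [monomial_mk4, map_mul, map_mul, map_mul]
  exact (((hm_pow 0 a).mul (hm_pow 1 b)).mul (hm_pow 2 c)).mul (hm_pow 3 d)

theorem cc_mk4 (a b c d a' b' c' d' : ℕ) : cc (mk4 a b c d) (mk4 a' b' c' d')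
    (cop0 (monomial (mk4 (a + a') (b + b') (c + c') (d + d')) 1)) =
      ((a + a').choose a : ℕ) * ((b + b').choose b : ℕ) * ((c + c').choose c : ℕ) *
        ((d + d').choose d : ℕ) := by
  have h := fun k l m => hm_pow k (l + m)
  simp only [Finsupp.single_add] at h
  have h1 := (h 0 a a').mul (h 1 b b')
  rw [add_add_add_comm] at h1
  have h2 := h1.mul (h 2 c c')
  rw [add_add_add_comm] at h2
  rw [monomial_mk4, map_mul, map_mul, map_mul, mk4, mk4, h2.cc_mul (h 3 d d'),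
    h1.cc_mul (h 2 c c'), (h 0 a a').cc_mul (h 1 b b'), cc_pow_single, cc_pow_single,
    cc_pow_single, cc_pow_single] <;>
  · intro i
    simp only [Finsupp.add_apply, Finsupp.single_apply]
    split_ifs <;> omega

/-- **Leading terms**, the vanishing part. -/
theorem lead_zero (y : Fn (ZMod 3)) {E L : ℕ →₀ ℕ} (hE : wE 3 E < 242)
    (h : ∀ K, wE 3 L + wE 3 K = wE 3 E → ph L + ph K ≤ ph E → coeff 0 (y K) = 0) :
    coeff L (op0 y (monomial E 1)) = 0 := by
  obtain ⟨a, b, c, d, rfl⟩ := exists_mk4 hE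
  rw [coeff_op0]
  refine Finset.sum_eq_zero fun K _ => ?_
  by_contra h0
  have h1 := left_ne_zero_of_mul h0
  refine right_ne_zero_of_mul h0 (h K (wE_of_cc h1) ?_)
  rw [← sub_add_cancel (cop _) (cop0 (monomial (mk4 a b c d) 1))] at h1
  rcases cc_add_ne h1 with h2 | h2
  · exact ((gd_mk4 a b c d).2 _ _ h2).le
  · exact Nat.lt_succ_iff.1 ((gd_mk4 a b c d).1 _ _ h2)

/-- **Leading terms**, the pivot. -/
theorem lead_pivot (y : Fn (ZMod 3)) (a b c d a' b' c' d' : ℕ)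
    (h : ∀ K, wE 3 K = wE 3 (mk4 a' b' c' d') → ph K < ph (mk4 a' b' c' d') → coeff 0 (y K) = 0) :
    coeff (mk4 a b c d) (op0 y (monomial (mk4 (a + a') (b + b') (c + c') (d + d')) 1)) =
      ((a + a').choose a : ℕ) * ((b + b').choose b : ℕ) * ((c + c').choose c : ℕ) *
        ((d + d').choose d : ℕ) * coeff 0 (y (mk4 a' b' c' d')) := by
  have h3 := (gd_mk4 (a + a') (b + b') (c + c') (d + d')).2
  have h4 : ∀ K, ph (mk4 a' b' c' d') ≤ ph K → cc (mk4 a b c d) K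
      (cop (monomial (mk4 (a + a') (b + b') (c + c') (d + d')) 1)) = cc (mk4 a b c d) K
        (cop0 (monomial (mk4 (a + a') (b + b') (c + c') (d + d')) 1)) := fun K hK => by
    rw [← sub_add_cancel (cop _) (cop0 _), cc_add, not_not.1 (mt (h3 _ K) ?_), zero_add]
    rw [ph_mk4] at hK
    rw [ph_mk4, ph_mk4]
    omega
  rw [coeff_op0, Finset.sum_eq_single (mk4 a' b' c' d') (fun K _ hK => ?_) fun hK => ?_,
    h4 _ le_rfl, cc_mk4]
  · by_contra h0
    have h1 := left_ne_zero_of_mul h0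
    have h2 := wE_of_cc h1
    rw [← mk4_add, wE, wE, wE, map_add] at h2
    rcases lt_or_ge (ph K) (ph (mk4 a' b' c' d')) with h5 | h5
    · exact right_ne_zero_of_mul h0 (h K (Nat.add_left_cancel h2) h5)
    · rw [h4 K h5] at h1
      exact hK (add_left_cancel ((hm_mk4 _ _ _ _ _ _ h1).trans (mk4_add ..).symm))
  · rw [cc, notMem_support_iff.1 hK, coeff_zero, zero_mul]

end Vale.Agent.P236X

end
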