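import Vale.Agent.P236X.Tau
import Vale.Agent.P236C.Dat
import Vale.Agent.P236B.Qis

/-!
# P236X: exactness of the resolution which is defined by the data
-/

namespace Vale.Agent.P236X

open Vale.Agent.P236B Vale.Agent.P257.H80 MvPolynomial
open Vale.Agent.P236C (RD XD IE getL fld wdI offI xd0 mkRes XF xval cs cf)

/-- the coefficient of the generator of degree `d'` whose digit is at the position `o` -/
noncomputable def x0 (T : ℕ) (w : ℕ → ℕ) (x : XD) (d' o f1 f2 f3 f4 : ℕ) : ℕ :=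
  frc f1 fun f1 => frc f2 fun f2 => frc f3 fun f3 => frc f4 fun f4 =>
    frc (Nat.add (Nat.add x.c f1) (Nat.mul (nat_lit 4) f2)) fun c =>
      Bool.rec (nat_lit 0) (frc (Nat.land (Nat.shiftRight
        (fld T w c (getL (Nat.mul (nat_lit 0) (Nat.add x.c f1)) (getL [] x.x f1) f2) f4 f3) o)
          (nat_lit 3)) fun k => Nat.sub k (Nat.div k (nat_lit 3)))
        (Nat.beq (Nat.add (Nat.add c (Nat.mul (nat_lit 13) f3)) (Nat.mul (nat_lit 40) f4)) d')

theorem cf_eq (y : ℕ) : cf (y % 4) = ((y % 4 - y % 4 / 3 : ℕ) : ZMod 3) := by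
  have h : ∀ k < 4, cf k = ((k - k / 3 : ℕ) : ZMod 3) := by decide
  exact h _ (Nat.mod_lt _ (by norm_num))

theorem ex_eq_zero {e : IE} (h : e.ex = 0) : e.j1 = 0 ∧ e.j2 = 0 ∧ e.j3 = 0 ∧ e.j4 = 0 := by
  have h1 := congrArg (wE 3) h
  rw [P236C.IE.ex, kk_eq, wE_mk4, show wE 3 0 = 0 from rfl] at h1
  omega

theorem coeff_zero_xval {ds : List ℕ} {i : ℕ} (hi : i < ds.length) (x : ℕ) :
    coeff 0 (xval ds (getL 0 ds i) x i) =
      cf (x >>> offI (ds.take i) (getL 0 ds i) % 4) := by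
  have h1 : (ds.take i).length = i := List.length_take_of_le hi.le
  generalize hc : getL 0 ds i = c
  have h2 : P236C.inner c ds 0 = P236C.inner c (ds.take i) 0 ++
      ([⟨i, 0, 0, 0, 0⟩] ++ P236C.inner c (ds.drop (i + 1)) (i + 1)) := by
    conv_lhs => rw [← List.take_append_drop i ds]
    rw [P236C.inner_append, h1, zero_add, List.drop_eq_getElem_cons hi, P236C.inner_cons,
      show ds[i] = c by rw [← hc, P236C.getL_eq, List.getD_eq_getElem _ _ hi], P236C.innG]
    have h3 : ∀ d, 0 < d → P236C.cnt c d c = 1 := fun d hd =>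
      (congrArg (· / d) (Nat.add_sub_cancel_left c d)).trans (Nat.div_self hd)
    simp [h3, P236C.foldN, P236C.inn1_eq]
  rw [P236C.coeff_xval, h2, P236C.cs_append, P236C.cs_append, P236C.cs_eq_zero _ fun e he => if_neg
    fun h => by have := (P236C.mem_inner e he).2.1; omega, P236C.cs_eq_zero (l := P236C.inner _ _ _) _
      fun e he => if_neg fun h => by have := (P236C.mem_inner e he).1; omega,
    P236C.offI_eq, Nat.shiftRight_eq_div_pow, pow_mul]
  simp [cs, P236C.IE.ex, kk]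

theorem coeff_XF {T : ℕ} {ds : List ℕ} {i : ℕ} (hi : i < ds.length) (hT : getL 0 ds i ≤ T)
    (x : XD) (a b c d : ℕ) : coeff 0 (XF T ds x i (mk4 a b c d)) =
      x0 T (wdI ds) x (getL 0 ds i) (offI (ds.take i) (getL 0 ds i)) a b c d := by
  simp only [x0, frc_eq, Nat.add_eq, Nat.mul_eq, Nat.sub_eq]
  rw [← kk_eq, show nat_lit 0 * (x.c + a) = 0 from Nat.zero_mul _]
  change _ = Nat.cast (Bool.rec 0 _ (Nat.beq (x.c + a + 4 * b + 13 * c + 40 * d) _))
  by_cases h : x.c + a + 4 * b + 13 * c + 40 * d = getL 0 ds i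
  · rw [P236C.XF_kk _ _ _ (h ▸ hT), h, coeff_zero_xval hi, cf_eq, Nat.beq_refl,
      ← Nat.and_two_pow_sub_one_eq_mod _ 2]
    rfl
  · rw [Bool.eq_false_iff.2 (mt Nat.eq_of_beq_eq_true h)]
    by_cases h1 : x.c + a + 4 * b + 13 * c + 40 * d ≤ T
    · rw [P236C.XF_kk _ _ _ h1, P236C.coeff_xval]
      refine P236C.cs_eq_zero _ fun e he => if_neg fun h2 => h ?_
      have h3 := (P236C.mem_inner e he).2.2.2
      have h4 := ex_eq_zero h2.2
      rw [Nat.sub_zero, h2.1] at h3
      omega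
    · rw [XF, if_neg fun h2 => h1 (by simpa [kk] using h2.2)]
      rfl

/-- lookup in a table of values -/
def lk (t b c d : ℕ) : ℕ := Nat.land (Nat.shiftRight t (Nat.mul (nat_lit 2) (Nat.add (Nat.add b
  (Nat.mul (nat_lit 27) c)) (Nat.mul (nat_lit 243) d)))) (nat_lit 3)

/-- the values which are given by a table -/
noncomputable def vv (ds ds' : List ℕ) (tb : List (List ℕ)) (i' i a b c d : ℕ) : ℕ :=
  Bool.rec (nat_lit 0) (lk (getL (nat_lit 0) (getL [] tb i') i) b c d) (Nat.beq (Nat.add (Nat.add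
    (Nat.add (Nat.add (getL (nat_lit 0) ds i) a) (Nat.mul (nat_lit 4) b)) (Nat.mul (nat_lit 13) c))
      (Nat.mul (nat_lit 40) d)) (getL (nat_lit 0) ds' i'))

/-- the check of the table of values -/
noncomputable def chkV (T : ℕ) (ds ds' : List ℕ) (xs : List XD) (tb : List (List ℕ)) : Bool :=
  Nat.ble ds.length xs.length && allN ds'.length fun i' => frc (getL (nat_lit 0) ds' i') fun d' =>
    frc (offI (ds'.take i') d') fun o => Nat.ble d' T && allN ds.length fun i =>
      frc (getL xd0 xs i).c fun c0 => Nat.blt d' c0 || allM (Nat.sub d' c0) fun a b c d =>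
        Nat.beq (Nat.mod (tauV (x0 T (wdI ds') (getL xd0 xs i) d' o) a b c d) (nat_lit 3))
          (lk (getL (nat_lit 0) (getL [] tb i') i) b c d)

/-- the check of the leading terms -/
noncomputable def chkP (ds ds' : List ℕ) (tb : List (List ℕ)) (gb : List (List El)) : Bool :=
  allN ds.length fun i =>
    (getL [] gb i).all (pivOk (vv ds ds' tb) ds.length ds'.length (getL (nat_lit 0) ds) i)

/-- lookup in a table of ranks -/
def rd (x e : ℕ) : ℕ := Nat.mod (Nat.shiftRight x (Nat.mul (nat_lit 16) e)) (nat_lit 65536)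

/-- the check of the numbers of leading terms -/
noncomputable def chkC (T : ℕ) (ds : List ℕ) (gb : List (List El)) (r : ℕ) : Bool :=
  allN (T + 1) fun e => Nat.beq (cnt ds.length (getL (nat_lit 0) ds) (getL [] gb) e) (rd r e)

/-- the check of the dimensions -/
noncomputable def chkT (T : ℕ) (ds : List ℕ) (r r' : ℕ) : Bool :=
  allN (T + 1) fun e => Nat.ble (tot ds.length (getL (nat_lit 0) ds) e) (rd r e + rd r' e)

/-- the check of the dimensions in stage zero -/
noncomputable def chkZ (T : ℕ) (ds : List ℕ) (r : ℕ) : Bool :=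
  allN T fun e => Nat.ble (tot ds.length (getL (nat_lit 0) ds) (e + 1)) (rd r (e + 1))

/-- the generator with a given number -/
def gen (i : ℕ) : Fin 64 := Fin.ofNat 64 i

variable {D : RD} (h : D.Ok) {j : ℕ}

include h in
theorem gen_val {i : ℕ} (hi : i < (D.ds j).length) : (gen i : ℕ) = i :=
  Nat.mod_eq_of_lt (hi.trans_le (h.len j))

theorem dg_link (j : ℕ) : Dg (mkRes D h) gen j (D.ds j).length D.T (getL 0 (D.ds j)) where
  deg i hi := by rw [P236C.mkRes_deg, gen_val h hi, P236C.getL_lt 1000 0 hi]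
  all g hg := by
    refine ⟨g, not_le.1 fun h1 => ?_, Fin.ext (Nat.mod_eq_of_lt g.2)⟩
    rw [P236C.mkRes_deg, P236C.getL_of_le _ h1] at hg
    have := h.T_lt
    omega

theorem vl_link {tb : List (List ℕ)} (hv : chkV D.T (D.ds j) (D.ds (j + 1)) (D.xs j) tb = true) :
    Vl (mkRes D h) gen j (D.ds j).length (D.ds (j + 1)).length
      (vv (D.ds j) (D.ds (j + 1)) tb) := fun i' hi' i hi a b c d => by
  simp only [chkV, frc_eq, Bool.and_eq_true, Nat.ble_eq] at hv
  have h1 := allN_spec hv.2 i' hi'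
  simp only [Bool.and_eq_true, Nat.ble_eq] at h1
  have h2 := allN_spec h1.2 i hi
  have h3 := (h.xc j i (hi.trans_le hv.1)).2
  change _ = Nat.cast (Bool.rec 0 _ (Nat.beq (getL 0 (D.ds j) i + a + 4 * b + 13 * c + 40 * d)
    (getL 0 (D.ds (j + 1)) i')))
  by_cases h4 : getL 0 (D.ds j) i + a + 4 * b + 13 * c + 40 * d = getL 0 (D.ds (j + 1)) i'
  · simp only [Bool.or_eq_true, Nat.blt_eq, Nat.sub_eq, h3] at h2
    have h5 := Nat.eq_of_beq_eq_true (allM_spec (h2.resolve_left (not_lt.2 (h4 ▸ by omega)))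
      (a := a) (b := b) (c := c) (d := d) (Nat.eq_sub_of_add_eq (h4 ▸ by omega)))
    rw [h4, Nat.beq_refl, P236C.mkRes_a, gen_val h hi, gen_val h hi', P236C.RD.a,
      if_pos ⟨hi.trans_le hv.1, hi'⟩, coeff_ofX (coeff_XF hi' h1.1 _), ← ZMod.natCast_mod _ 3]
    exact congrArg _ h5
  · rw [Bool.eq_false_iff.2 (mt Nat.eq_of_beq_eq_true h4)]
    by_contra h5
    have h6 := (mkRes D h).hom j _ _ _ _ h5
    rw [(dg_link h j).deg i hi, (dg_link h (j + 1)).deg i' hi', wE_mk4,
      show wE 3 0 = 0 from rfl] at h6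
    omega

/-- The certificates for one stage. -/
def LvOk (T : ℕ) (ds ds' : List ℕ) (xs : List XD) (r : ℕ) : Prop :=
  ∃ tb gb, chkV T ds ds' xs tb = true ∧ chkP ds ds' tb gb = true ∧ chkC T ds gb r = true

theorem st_link {r : ℕ} (hl : LvOk D.T (D.ds j) (D.ds (j + 1)) (D.xs j) r) :
    St (mkRes D h) j D.T (rd r) := by
  obtain ⟨tb, gb, h1, h2, h3⟩ := hl
  exact st_of_chk (h.T_lt.le.trans (by norm_num)) (dg_link h j) (vl_link h h1) h2 h3

/-- **Exactness of the resolution.** -/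
theorem okU_link {N S : ℕ} (hN : 0 < N) {r : ℕ → ℕ}
    (hl : ∀ j ≤ S, LvOk D.T (D.ds j) (D.ds (j + 1)) (D.xs j) (r j))
    (h0 : chkZ D.T (D.ds 0) (r 0) = true)
    (ht : ∀ j < S, chkT D.T (D.ds (j + 1)) (r j) (r (j + 1)) = true)
    (hQ : ∀ j ≤ S, (mkRes D h).Q N j (2 * D.T)) : (mkRes D h).OkU N S (2 * D.T) := fun j hj => by
  have hT : D.T ≤ 120 := h.T_lt.le.trans (by norm_num)
  refine ⟨hQ j hj, ?_⟩
  rcases j with _ | j
  · exact xc_zero_of hT (st_link h (hl 0 hj)) (dg_link h 0) h0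
  · exact xc_succ_of hT hN (hQ j (by omega)) (st_link h (hl j (by omega)))
      (st_link h (hl _ hj)) (dg_link h _) (ht j hj)

end Vale.Agent.P236X
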