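import Vale.Agent.P236X.Rank
import Mathlib.Data.Nat.Choose.Lucas

/-!
# P236X: Milnor's product formula, as a program
-/

namespace Vale.Agent.P236X

open Vale.Agent.P236B Vale.Agent.P257.H80 MvPolynomial Finset

/-- bounded sum -/
noncomputable def sumN (n : ℕ) (f : ℕ → ℕ) : ℕ := Nat.rec 0 (fun i ih => Nat.add (f i) ih) n

theorem sumN_eq (n : ℕ) (f : ℕ → ℕ) : sumN n f = ∑ i ∈ range n, f i := by
  induction n with
  | zero => rfl
  | succ n ih => rw [Finset.sum_range_succ, ← ih]; exact Nat.add_comm _ _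

/-- evaluate a small number -/
noncomputable def frc {β : Type} (a : ℕ) (k : ℕ → β) : β :=
  Nat.rec (k (nat_lit 0)) (fun n _ => k (Nat.succ n)) a

theorem frc_eq {β : Type} (a : ℕ) (k : ℕ → β) : frc a k = k a := by cases a <;> rfl

/-- lazy product -/
noncomputable def mulZ (c k : ℕ) : ℕ := Nat.rec (nat_lit 0) (fun _ _ => Nat.mul c k) c

theorem mulZ_eq (c k : ℕ) : mulZ c k = c * k := by
  cases c
  · exact (Nat.zero_mul k).symm
  · rfl

/-- binomial coefficients of digits -/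
def c3 (a b : ℕ) : ℕ :=
  Nat.land (Nat.shiftRight (nat_lit 102721) (Nat.add (Nat.mul (nat_lit 6) a) (Nat.add b b)))
    (nat_lit 3)

/-- binomial coefficients by the theorem of Lucas -/
noncomputable def chF (f : ℕ) : ℕ → ℕ → ℕ :=
  Nat.rec Nat.choose (fun _ ih n k => Nat.rec (nat_lit 1) (fun _ _ =>
    mulZ (c3 (Nat.mod n (nat_lit 3)) (Nat.mod k (nat_lit 3)))
      (ih (Nat.div n (nat_lit 3)) (Nat.div k (nat_lit 3)))) k) f

theorem chF_eq (f n k : ℕ) : (chF f n k : ZMod 3) = n.choose k := by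
  induction f generalizing n k with
  | zero => rfl
  | succ f ih =>
    rcases k with _ | k
    · rw [Nat.choose_zero_right]; rfl
    · have h : ∀ a < 3, ∀ b < 3, c3 a b = a.choose b := by decide
      change ((mulZ (c3 (n % 3) ((k + 1) % 3)) (chF f (n / 3) ((k + 1) / 3)) : ℕ) : ZMod 3) = _
      rw [mulZ_eq, Nat.cast_mul, ih, h _ (Nat.mod_lt _ (by norm_num)) _ (Nat.mod_lt _ (by norm_num)),
        ← Nat.cast_mul]
      exact ((ZMod.natCast_eq_natCast_iff _ _ _).2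
        Choose.choose_modEq_choose_mod_mul_choose_div_nat).symm

/-- binomial coefficients modulo three -/
noncomputable def ch (n k : ℕ) : ℕ := chF (nat_lit 5) n k

theorem ch_eq (n k : ℕ) : (ch n k : ZMod 3) = n.choose k := chF_eq _ _ _

/-- the sum over the number of factors `t_i ⊗ m` -/
noncomputable def lp (e l : ℕ) (f : ℕ → ℕ → ℕ → ℕ) : ℕ :=
  sumN (Nat.succ (Bool.rec l e (Nat.ble e l))) fun x =>
    mulZ (ch e x) (frc (Nat.sub e x) fun e' => frc (Nat.sub l x) fun l' => f x e' l')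

theorem lp_eq (e l : ℕ) (f : ℕ → ℕ → ℕ → ℕ) : (lp e l f : ZMod 3) =
    ∑ x ∈ range (min e l + 1), (e.choose x : ZMod 3) * f x (e - x) (l - x) := by
  have h : (Bool.rec l e (Nat.ble e l) : ℕ) = min e l := by
    cases h : Nat.ble e l
    · exact (min_eq_right (Nat.lt_of_not_le (mt Nat.ble_eq_true_of_le (by simp [h]))).le).symm
    · exact (min_eq_left (Nat.le_of_ble_eq_true h)).symm
  simp only [lp, h, sumN_eq, mulZ_eq, frc_eq, Nat.cast_sum, Nat.cast_mul, ch_eq, Nat.sub_eq]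

/-- the factors `t_i ⊗ 1` -/
noncomputable def ls (e l : ℕ) (f : ℕ → ℕ) : ℕ := mulZ (ch e l) (frc (Nat.sub e l) f)

theorem ls_eq (e l : ℕ) (f : ℕ → ℕ) : (ls e l f : ZMod 3) = (e.choose l : ZMod 3) * f (e - l) := by
  simp only [ls, mulZ_eq, frc_eq, Nat.cast_mul, ch_eq, Nat.sub_eq]

variable (v : ℕ → ℕ → ℕ → ℕ → ℕ)

/-- the factor `Δ t₁ ^ e₁` -/
noncomputable def f1 (l1 e1 k1 k2 k3 k4 : ℕ) : ℕ := ls e1 l1 fun e => v (Nat.add k1 e) k2 k3 k4

/-- the factor `Δ t₂ ^ e₂` -/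
noncomputable def f2 (l1 l2 e1 e2 k1 k2 k3 k4 : ℕ) : ℕ :=
  ls e2 l2 fun e => lp e l1 fun x e l1 =>
    f1 v l1 e1 (Nat.add k1 (Nat.mul x (nat_lit 3))) (Nat.add k2 e) k3 k4

/-- the factor `Δ t₃ ^ e₃` -/
noncomputable def f3 (l1 l2 l3 e1 e2 e3 k1 k2 k3 k4 : ℕ) : ℕ :=
  ls e3 l3 fun e => lp e l2 fun x e l2 => lp e l1 fun y e l1 =>
    f2 v l1 l2 e1 e2 (Nat.add k1 (Nat.mul x (nat_lit 9))) (Nat.add k2 (Nat.mul y (nat_lit 3)))
      (Nat.add k3 e) k4

/-- the coefficient of `t ^ l` in `(1 ⊗ v) Δ t ^ e` -/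
noncomputable def mil (l1 l2 l3 l4 e1 e2 e3 e4 : ℕ) : ℕ :=
  ls e4 l4 fun e => lp e l3 fun x e l3 => lp e l2 fun y e l2 => lp e l1 fun z e l1 =>
    f3 v l1 l2 l3 e1 e2 e3 (Nat.mul x (nat_lit 27)) (Nat.mul y (nat_lit 9))
      (Nat.mul z (nat_lit 3)) e

/-- no factor `t_i ⊗ 1` -/
def NoT (i : ℕ) (f : MvPolynomial ℕ P) : Prop := ∀ L K, cc L K f ≠ 0 → L i = 0

theorem NoT.add {i : ℕ} {f g : MvPolynomial ℕ P} (hf : NoT i f) (hg : NoT i g) : NoT i (f + g) :=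
  fun L K h => (cc_add_ne h).elim (hf L K) (hg L K)

theorem NoT.mul {i : ℕ} {f g : MvPolynomial ℕ P} (hf : NoT i f) (hg : NoT i g) : NoT i (f * g) :=
  fun L K h0 => by
  obtain ⟨L₁, K₁, L₂, K₂, rfl, rfl, h1, h2⟩ := cc_mul_ne h0
  rw [Finsupp.add_apply, hf _ _ h1, hg _ _ h2]

theorem noT_mon (i : ℕ) (K : ℕ →₀ ℕ) : NoT i (monomial K 1) := fun L K' h => by
  rw [one_def] at h
  rw [← (cc_monomial_ne h).2, Finsupp.zero_apply]

theorem NoT.pow {i : ℕ} {f : MvPolynomial ℕ P} (hf : NoT i f) (n : ℕ) : NoT i (f ^ n) := by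
  induction n with
  | zero => exact noT_mon i 0
  | succ n ih => exact pow_succ f n ▸ ih.mul hf

theorem noT_CX {i j : ℕ} (h : j ≠ i) (K : ℕ →₀ ℕ) : NoT i (C (X j) * monomial K 1) :=
  fun L K' h0 => by
  rw [C_mul_monomial, mul_one, X] at h0
  rw [← (cc_monomial_ne h0).2, Finsupp.single_eq_of_ne' h]

variable {v} {y : Fn (ZMod 3)}

/-- the coefficient of `t ^ L` in `(1 ⊗ y) f` -/
noncomputable def lm (y : Fn (ZMod 3)) (L : ℕ →₀ ℕ) (f : MvPolynomial ℕ P) : ZMod 3 :=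
  coeff L (act y C (vmk 0) f)

theorem NoT.lm {i : ℕ} {f : MvPolynomial ℕ P} (hf : NoT i f) {L : ℕ →₀ ℕ} (h : L i ≠ 0) :
    lm y L f = 0 := by
  rw [P236X.lm, act_apply, coeff_sum]
  refine Finset.sum_eq_zero fun K _ => ?_
  rw [kx_zero, mul_comm, coeff_C_mul, ← cc, not_not.1 (mt (hf L K) h), mul_zero]

theorem lm_all (A R : MvPolynomial ℕ P) (i e : ℕ) (L m k : ℕ →₀ ℕ) :
    lm y L ((A + C (X i) * monomial m 1) ^ e * (R * monomial k 1)) = ∑ x ∈ range (e + 1),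
      (e.choose x : ZMod 3) * if x ≤ L i then
        lm y (L - Finsupp.single i x) (A ^ (e - x) * (R * monomial (k + x • m) 1)) else 0 := by
  rw [add_comm A, add_pow, Finset.sum_mul, lm, map_sum, coeff_sum]
  refine Finset.sum_congr rfl fun x _ => ?_
  rw [show (C (X i) * monomial m 1) ^ x * A ^ (e - x) * (e.choose x : MvPolynomial ℕ P) *
      (R * monomial k 1) = C (C (e.choose x : ZMod 3) * X i ^ x) * (A ^ (e - x) *
        (R * monomial (k + x • m) 1)) by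
    rw [show (monomial (k + x • m) 1 : MvPolynomial ℕ P) = monomial k 1 * monomial m 1 ^ x by
      rw [monomial_pow, monomial_mul, one_pow, one_mul], map_mul, map_natCast, map_natCast, map_pow]
    ring, act_C_mul, mul_assoc, coeff_C_mul, X_pow_eq_monomial, coeff_monomial_mul']
  simp only [Finsupp.single_le_iff, one_mul, lm]

theorem lm_lp (A R : MvPolynomial ℕ P) (i e : ℕ) (L m k : ℕ →₀ ℕ) :
    lm y L ((A + C (X i) * monomial m 1) ^ e * (R * monomial k 1)) =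
      ∑ x ∈ range (min e (L i) + 1), (e.choose x : ZMod 3) *
        lm y (L - Finsupp.single i x) (A ^ (e - x) * (R * monomial (k + x • m) 1)) := by
  rw [lm_all, ← Finset.sum_subset (s₁ := range (min e (L i) + 1))
    (Finset.range_subset_range.2 (by omega)) fun x h1 h2 => by
      rw [if_neg (by simp only [Finset.mem_range] at h1 h2; omega), mul_zero]]
  exact Finset.sum_congr rfl fun x hx => by rw [if_pos (by have := Finset.mem_range.1 hx; omega)]

theorem lm_ls {A R : MvPolynomial ℕ P} {i : ℕ} (hA : NoT i A) (hR : NoT i R) (e : ℕ)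
    (L k : ℕ →₀ ℕ) : lm y L ((A + C (X i) * monomial 0 1) ^ e * (R * monomial k 1)) =
      (e.choose (L i) : ZMod 3) *
        lm y (L - Finsupp.single i (L i)) (A ^ (e - L i) * (R * monomial k 1)) := by
  rw [lm_all, Finset.sum_eq_single (L i) (fun x _ hx => ?_) fun h => ?_, if_pos le_rfl, smul_zero,
    add_zero]
  · split_ifs with h
    · rw [((hA.pow _).mul (hR.mul (noT_mon _ _))).lm, mul_zero]
      rw [Finsupp.tsub_apply, Finsupp.single_eq_same]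
      omega
    · exact mul_zero _
  · rw [Nat.choose_eq_zero_of_lt (by simpa using h), Nat.cast_zero, zero_mul]

theorem lm_mv (R : MvPolynomial ℕ P) (e : ℕ) (L m k : ℕ →₀ ℕ) :
    lm y L (monomial m 1 ^ e * (R * monomial k 1)) = lm y L (R * monomial (k + e • m) 1) := by
  rw [monomial_pow, one_pow, mul_left_comm, monomial_mul, one_mul, add_comm]

theorem mk4_smul (x a b c d : ℕ) : x • mk4 a b c d = mk4 (x * a) (x * b) (x * c) (x * d) := by
  simp only [mk4, smul_add, Finsupp.smul_single, smul_eq_mul]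

theorem mk4_sub (a b c d x : ℕ) : mk4 a b c d - Finsupp.single 0 x = mk4 (a - x) b c d ∧
    mk4 a b c d - Finsupp.single 1 x = mk4 a (b - x) c d ∧
    mk4 a b c d - Finsupp.single 2 x = mk4 a b (c - x) d ∧
    mk4 a b c d - Finsupp.single 3 x = mk4 a b c (d - x) := by
  refine ⟨?_, ?_, ?_, ?_⟩ <;>
  · ext i
    simp only [mk4, Finsupp.tsub_apply, Finsupp.add_apply, Finsupp.single_apply]
    split_ifs <;> omega

theorem mk4_app (a b c d : ℕ) :
    mk4 a b c d 0 = a ∧ mk4 a b c d 1 = b ∧ mk4 a b c d 2 = c ∧ mk4 a b c d 3 = d := by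
  simp [mk4]

theorem cp0 : cop (X 0) = monomial (mk4 1 0 0 0) 1 + C (X 0) * monomial 0 1 := by
  simp [cop_0, monomial_mk4, add_comm]

theorem cp1 : cop (X 1) = monomial (mk4 0 1 0 0) 1 + C (X 0) * monomial (mk4 3 0 0 0) 1 +
    C (X 1) * monomial 0 1 := by
  simp [cop_1, monomial_mk4]
  ring

theorem cp2 : cop (X 2) = monomial (mk4 0 0 1 0) 1 + C (X 0) * monomial (mk4 0 3 0 0) 1 +
    C (X 1) * monomial (mk4 9 0 0 0) 1 + C (X 2) * monomial 0 1 := by
  simp [cop_2, monomial_mk4]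
  ring

theorem cp3 : cop (X 3) = monomial (mk4 0 0 0 1) 1 + C (X 0) * monomial (mk4 0 0 3 0) 1 +
    C (X 1) * monomial (mk4 0 9 0 0) 1 + C (X 2) * monomial (mk4 27 0 0 0) 1 +
      C (X 3) * monomial 0 1 := by
  simp [cop_3, monomial_mk4]
  ring

theorem noT0 {i : ℕ} (h : 0 < i) (e : ℕ) : NoT i (cop (X 0) ^ e) :=
  NoT.pow (cp0 ▸ (noT_mon _ _).add (noT_CX (by omega) _)) e

theorem noT1 {i : ℕ} (h : 1 < i) (e e' : ℕ) : NoT i (cop (X 1) ^ e' * cop (X 0) ^ e) :=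
  (NoT.pow (cp1 ▸ ((noT_mon _ _).add (noT_CX (by omega) _)).add (noT_CX (by omega) _)) e').mul
    (noT0 (by omega) e)

variable (hv : ∀ a b c d, coeff 0 (y (mk4 a b c d)) = v a b c d)

include hv

theorem f1_eq (l1 e1 k1 k2 k3 k4 : ℕ) : lm y (mk4 l1 0 0 0)
    (cop (X 0) ^ e1 * monomial (mk4 k1 k2 k3 k4) 1) = f1 v l1 e1 k1 k2 k3 k4 := by
  rw [← one_mul (monomial (mk4 k1 k2 k3 k4) 1), cp0, lm_ls (R := 1) (noT_mon _ _) (noT_mon _ 0),
    lm_mv, (mk4_app ..).1, (mk4_sub ..).1,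
    Nat.sub_self, f1, ls_eq, one_mul, lm, act_monomial, one_mul, kx_zero, mk4_smul, mk4_add, hv,
    show mk4 0 0 0 0 = 0 by simp [mk4], coeff_zero_C]
  simp only [mul_one, mul_zero, add_zero, Nat.add_eq]

theorem f2_eq (l1 l2 e1 e2 k1 k2 k3 k4 : ℕ) : lm y (mk4 l1 l2 0 0)
    (cop (X 1) ^ e2 * cop (X 0) ^ e1 * monomial (mk4 k1 k2 k3 k4) 1) =
      f2 v l1 l2 e1 e2 k1 k2 k3 k4 := by
  rw [mul_assoc, cp1, lm_ls ((noT_mon _ _).add (noT_CX (by omega) _)) (noT0 (by omega) _)]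
  simp only [lm_lp, lm_mv, mk4_app, mk4_sub, Nat.sub_self, mk4_smul, mk4_add, f1_eq hv, f2, ls_eq,
    lp_eq, mul_one, mul_zero, add_zero, Nat.add_eq, Nat.mul_eq]

theorem f3_eq (l1 l2 l3 e1 e2 e3 k1 k2 k3 k4 : ℕ) : lm y (mk4 l1 l2 l3 0)
    (cop (X 2) ^ e3 * (cop (X 1) ^ e2 * cop (X 0) ^ e1) * monomial (mk4 k1 k2 k3 k4) 1) =
      f3 v l1 l2 l3 e1 e2 e3 k1 k2 k3 k4 := by
  rw [mul_assoc, cp2, lm_ls (((noT_mon _ _).add (noT_CX (by omega) _)).add (noT_CX (by omega) _))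
    (noT1 (by omega) _ _)]
  simp only [lm_lp, lm_mv, mk4_app, mk4_sub, Nat.sub_self, mk4_smul, mk4_add, f2_eq hv, f3, ls_eq,
    lp_eq, mul_one, mul_zero, add_zero, Nat.add_eq, Nat.mul_eq]

theorem mil_eq (l1 l2 l3 l4 e1 e2 e3 e4 : ℕ) :
    coeff (mk4 l1 l2 l3 l4) (op0 y (monomial (mk4 e1 e2 e3 e4) 1)) =
      mil v l1 l2 l3 l4 e1 e2 e3 e4 := by
  rw [op0_apply, ← lm, show cop (monomial (mk4 e1 e2 e3 e4) 1) = cop (X 3) ^ e4 * (cop (X 2) ^ e3 *
    (cop (X 1) ^ e2 * cop (X 0) ^ e1) * monomial (mk4 0 0 0 0) 1) by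
      simp only [monomial_mk4, map_mul, map_pow]; ring, cp3, lm_ls ((((noT_mon _ _).add
    (noT_CX (by omega) _)).add (noT_CX (by omega) _)).add (noT_CX (by omega) _)) ((NoT.pow (cp2 ▸
      (((noT_mon _ _).add (noT_CX (by omega) _)).add (noT_CX (by omega) _)).add
        (noT_CX (by omega) _)) _).mul (noT1 (by omega) _ _))]
  simp only [lm_lp, lm_mv, mk4_app, mk4_sub, Nat.sub_self, mk4_smul, mk4_add, f3_eq hv, mil, ls_eq,
    lp_eq, mul_one, mul_zero, add_zero, zero_add, Nat.mul_eq]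

end Vale.Agent.P236X
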