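import Vale.Agent.P236X.Cop

/-!
# P236X: exactness from lower bounds for ranks; ranks from leading terms
-/

noncomputable section

namespace Vale.Agent.P236X

open Vale.Agent.P236B Vale.Agent.P257.H80 MvPolynomial Finset Module

section lin

variable {F V W Z : Type} [Field F] [AddCommGroup V] [Module F V] [AddCommGroup W] [Module F W]
  [AddCommGroup Z] [Module F Z]

/-- `f` has rank at least `r` on `U`. -/
def Rk (f : V →ₗ[F] W) (U : Submodule F V) (r : ℕ) : Prop :=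
  ∃ (ι : Type) (_ : Fintype ι) (v : ι → V), Fintype.card ι = r ∧ (∀ i, v i ∈ U) ∧
    LinearIndependent F fun i => f (v i)

/-- `U` has dimension at most `n`. -/
def Dm (U : Submodule F V) (n : ℕ) : Prop :=
  ∃ T : Finset V, T.card ≤ n ∧ U ≤ Submodule.span F (T : Set V)

theorem rk_zero (f : V →ₗ[F] W) (U : Submodule F V) : Rk f U 0 :=
  ⟨Empty, inferInstance, Empty.elim, rfl, fun i => i.elim, linearIndependent_empty_type⟩

theorem Rk.le {f : V →ₗ[F] W} {U : Submodule F V} {r : ℕ} (h : Rk f U r) {S : Submodule F W}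
    [Module.Finite F S] (hS : ∀ x ∈ U, f x ∈ S) : r ≤ finrank F S := by
  obtain ⟨ι, _, v, rfl, h1, h2⟩ := h
  exact (LinearIndependent.of_comp S.subtype (v := fun i => ⟨f (v i), hS _ (h1 i)⟩)
    h2).fintype_card_le_finrank

theorem exact_of_count {f : V →ₗ[F] W} {g : W →ₗ[F] Z} {U : Submodule F V} {U' : Submodule F W}
    {r r' n : ℕ} (hf : Rk f U r) (hg : Rk g U' r') (hn : Dm U' n) (h : n ≤ r + r')
    (h0 : ∀ x ∈ U, f x ∈ U' ∧ g (f x) = 0) {c : W} (hc : c ∈ U') (hc' : g c = 0) :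
    ∃ k ∈ U, f k = c := by
  obtain ⟨T, hT, hU⟩ := hn
  have : Module.Finite F U' := Submodule.finiteDimensional_of_le hU
  have h1 : finrank F U' ≤ n :=
    ((Submodule.finrank_mono hU).trans (finrank_span_finset_le_card T)).trans hT
  have h2 := (g.domRestrict U').finrank_range_add_finrank_ker
  have h3 : r' ≤ finrank F (LinearMap.range (g.domRestrict U')) := hg.le fun x hx => ⟨⟨x, hx⟩, rfl⟩
  have h4 : U.map f ≤ (LinearMap.ker (g.domRestrict U')).map U'.subtype := by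
    rintro _ ⟨x, hx, rfl⟩
    exact ⟨⟨f x, (h0 x hx).1⟩, (h0 x hx).2, rfl⟩
  have : Module.Finite F (U.map f) := Submodule.finiteDimensional_of_le h4
  have h5 : r ≤ finrank F (U.map f) := hf.le fun x hx => ⟨x, hx, rfl⟩
  have h6 := Submodule.finrank_map_le U'.subtype (LinearMap.ker (g.domRestrict U'))
  have h7 := Submodule.eq_of_le_of_finrank_le h4 (by omega)
  exact h7.ge ⟨⟨c, hc⟩, hc', rfl⟩

theorem li_of_echelon {ι : Type} [Fintype ι] (v : ι → W) (κ : ι → ℕ) (hκ : Function.Injective κ)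
    (h : ∀ x, ∃ l : W →ₗ[F] F, l (v x) ≠ 0 ∧ ∀ y, κ y < κ x → l (v y) = 0) :
    LinearIndependent F v := by
  classical
  rw [Fintype.linearIndependent_iff]
  intro c hc
  by_contra! h1
  obtain ⟨x, hx, h2⟩ := Finset.exists_max_image (univ.filter fun i => c i ≠ 0) κ
    (h1.imp fun i hi => by simpa)
  obtain ⟨l, h3, h4⟩ := h x
  have h5 := congrArg l hc
  rw [map_sum, map_zero, Finset.sum_eq_single x (fun y _ hy => ?_) fun h => absurd (mem_univ x) h,
    map_smul, smul_eq_mul] at h5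
  · exact mul_ne_zero (Finset.mem_filter.1 hx).2 h3 h5
  · by_cases h6 : c y = 0
    · rw [h6, zero_smul, map_zero]
    · rw [map_smul, h4 y (lt_of_le_of_ne (h2 y (by simpa)) fun e => hy (hκ e)), smul_zero]

end lin

variable {G : Type} [Fintype G] [DecidableEq G] (R : Res 3 G) {j N e : ℕ}

/-- the differential modulo all `v_i` -/
abbrev D (j : ℕ) : (G → P) →ₗ[ZMod 3] G → P := R.DB j (RingHom.id _) (vmk 0)

/-- the standard basis -/
def bas (g : G) (E : ℕ →₀ ℕ) : G → P := Pi.single g (monomial E 1)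

theorem D_bas (g g' : G) (E : ℕ →₀ ℕ) :
    D R j (bas g E) g' = op0 (R.a j g' g) (monomial E 1) := by
  rw [Res.DB_apply, Finset.sum_eq_single g (fun h _ hh => by
    rw [bas, Pi.single_eq_of_ne hh, map_zero]) fun h => absurd (mem_univ g) h, bas,
    Pi.single_eq_same]

variable {R}

omit [Fintype G] in
theorem bas_mem {g : G} {E : ℕ →₀ ℕ} (h : wE 3 E + R.deg j g = e) : bas g E ∈ R.PV j e :=
  fun g' E' h1 => by
  by_cases h2 : g' = g
  · rw [h2, bas, Pi.single_eq_same, coeff_monomial] at h1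
    rwa [h2, ← not_not.1 (mt (if_neg ·) h1)]
  · rw [bas, Pi.single_eq_of_ne h2] at h1
    exact absurd rfl h1

omit [DecidableEq G] in
theorem D_mem {c : G → P} (hc : c ∈ R.PV j e) : D R j c ∈ R.PV (j + 1) e := fun g' E' h => by
  rw [Res.DB_apply, coeff_sum] at h
  obtain ⟨g, -, h⟩ := Finset.exists_ne_zero_of_sum_ne_zero h
  by_contra h1
  refine h ((R.hom j g' g).coeff_zero 3 _ fun E hE h2 => h1 ?_)
  have := hc g E hE
  omega

omit [DecidableEq G] in
theorem D_D (hN : 0 < N) (hQ : R.Q N j e) {c : G → P} (hc : c ∈ R.PV j e) :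
    D R (j + 1) (D R j c) = 0 := funext fun g'' => by
  have h1 : D R (j + 1) (D R j c) g'' = ∑ g, act
      (∑ g', conv 3 (R.a (j + 1) g'' g') (R.a j g' g)) C (vmk 0) (cop (c g)) := by
    simp only [Res.DB_apply, map_sum, act_sum, ← op0_apply, op_conv]
    exact Finset.sum_comm
  rw [h1, Pi.zero_apply]
  refine Finset.sum_eq_zero fun g _ => ?_
  rw [(c g).as_sum, map_sum, map_sum]
  refine Finset.sum_eq_zero fun E hE => ?_
  rw [← mul_one (coeff E _), ← C_mul_monomial, map_mul, cop, gD_C, ← cop, act_C_mul, act_apply,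
    Finset.sum_eq_zero fun K hK => ?_, mul_zero]
  obtain ⟨L, hL⟩ := ne_zero_iff.1 (mem_support_iff.1 hK)
  have h2 := wE_of_cc hL
  have h3 := hc g E (mem_support_iff.1 hE)
  obtain ⟨z, hz⟩ := Ideal.mem_span_singleton.1 (hQ g'' g K (by omega))
  rw [Finset.sum_apply, hz, map_mul, map_pow, kx_X, vmk_X, Pi.zero_apply, zero_pow hN.ne', zero_mul,
    mul_zero]

theorem dm_PV {ι : Type} (I : Finset ι) (g : ι → G) (E : ι → ℕ →₀ ℕ)
    (h : ∀ g' E', wE 3 E' + R.deg j g' = e → ∃ x ∈ I, g x = g' ∧ E x = E') :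
    Dm (R.PV j e) I.card := by
  classical
  refine ⟨I.image fun x => bas (g x) (E x), Finset.card_image_le, fun c hc => ?_⟩
  rw [vec_eq_sum c]
  refine sum_mem fun g' _ => sum_mem fun E' hE => Submodule.smul_mem _ _
    (Submodule.subset_span ?_)
  obtain ⟨x, hx, rfl, rfl⟩ := h g' E' (hc g' E' (mem_support_iff.1 hE))
  exact Finset.mem_coe.2 (Finset.mem_image.2 ⟨x, hx, rfl⟩)

omit [DecidableEq G] in
theorem xc_succ {r r' n : ℕ} (hN : 0 < N) (hQ : R.Q N j e) (h1 : Rk (D R j) (R.PV j e) r)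
    (h2 : Rk (D R (j + 1)) (R.PV (j + 1) e) r') (h3 : Dm (R.PV (j + 1) e) n) (h : n ≤ r + r') :
    R.Xc (j + 1) e := fun c hc hc' => by
  obtain ⟨k, hk, h4⟩ := exact_of_count h1 h2 h3 h (fun x hx => ⟨D_mem hx, D_D hN hQ hx⟩) hc
    ((Res.DB_zero c).trans hc')
  exact ⟨k, hk, (Res.DB_zero k).symm.trans h4⟩

omit [DecidableEq G] in
theorem xc_zero {r n : ℕ} (h2 : Rk (D R 0) (R.PV 0 e) r) (h3 : Dm (R.PV 0 e) n) (h : n ≤ r) :
    R.Xc 0 e := fun _ c hc hc' => by
  obtain ⟨k, -, h4⟩ := exact_of_count (rk_zero (0 : (G → P) →ₗ[ZMod 3] G → P) ⊤) h2 h3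
    (by omega) (fun x _ => ⟨zero_mem _, map_zero _⟩) hc ((Res.DB_zero c).trans hc')
  exact h4.symm

/-! ### leading terms of the elements of the image of the dual differential -/

variable (R) in
/-- the value of `∑ c • dl L * a (g', g)` on the monomial `t ^ K` -/
def ent (j : ℕ) (u : List (ZMod 3 × G × (ℕ →₀ ℕ))) (g : G) (K : ℕ →₀ ℕ) : ZMod 3 :=
  (u.map fun t => t.1 * coeff t.2.2 (op0 (R.a j t.2.1 g) (monomial K 1))).sum

theorem exists_row (u : List (ZMod 3 × G × (ℕ →₀ ℕ))) (L : ℕ →₀ ℕ) :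
    ∃ (l : (G → P) →ₗ[ZMod 3] ZMod 3) (y : G → Fn (ZMod 3)),
      (∀ g K, coeff 0 (y g K) = ent R j u g K) ∧
        ∀ g E, l (D R j (bas g E)) = coeff L (op0 (y g) (monomial E 1)) := by
  induction u with
  | nil => exact ⟨0, 0, fun _ _ => rfl, fun g E => by
      rw [op0_apply, Pi.zero_apply, act_zero, coeff_zero, LinearMap.zero_apply]⟩
  | cons t u ih =>
    obtain ⟨l, y, h1, h2⟩ := ih
    refine ⟨t.1 • (lcoeff _ L ∘ₗ op0 (dl t.2.2) ∘ₗ LinearMap.proj t.2.1) + l,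
      fun g => (C t.1 : P) • conv 3 (dl t.2.2) (R.a j t.2.1 g) + y g, fun g K => ?_,
      fun g E => ?_⟩
    · have h3 := act_conv 3 (dl t.2.2) (R.a j t.2.1 g) (RingHom.id _) (vmk 0) (monomial K 1)
      rw [act_monomial, one_mul, kx_zero, act_dl, RingHom.id_apply] at h3
      beta_reduce
      rw [Pi.add_apply, coeff_add, h1, Pi.smul_apply, smul_eq_mul, coeff_C_mul, h3]
      rfl
    · rw [LinearMap.add_apply, h2, op_add, coeff_add, op_smul, kx_C, op_conv, ← D_bas]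
      exact congrArg (· + _) (coeff_C_mul _ _ _).symm

/-- A column is the leading column of an element of the image of the dual differential. -/
def Led (R : Res 3 G) (gen : ℕ → G) (n j i : ℕ) (E : ℕ →₀ ℕ) : Prop :=
  ∃ l : (G → P) →ₗ[ZMod 3] ZMod 3, l (D R j (bas (gen i) E)) ≠ 0 ∧ ∀ i' < n, ∀ E',
    wE 3 E' + R.deg j (gen i') = wE 3 E + R.deg j (gen i) → (i < i' ∨ i' = i ∧ ph E' < ph E) →
      l (D R j (bas (gen i') E')) = 0

/-- The element `u` has the leading column `(i, K)`. -/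
def Piv (R : Res 3 G) (gen : ℕ → G) (n j : ℕ) (u : List (ZMod 3 × G × (ℕ →₀ ℕ))) (i : ℕ)
    (K : ℕ →₀ ℕ) : Prop :=
  ent R j u (gen i) K ≠ 0 ∧ ∀ i' < n, ∀ K',
    wE 3 K' + R.deg j (gen i') = wE 3 K + R.deg j (gen i) → (i < i' ∨ i' = i ∧ ph K' < ph K) →
      ent R j u (gen i') K' = 0

variable {gen : ℕ → G} {n : ℕ}

theorem Piv.led {u : List (ZMod 3 × G × (ℕ →₀ ℕ))} {i a b c d a' b' c' d' : ℕ}
    (h : Piv R gen n j u i (mk4 a' b' c' d')) (hi : i < n) (ha : a' ≤ a) (hb : b' ≤ b)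
    (hc : c' ≤ c) (hd : d' ≤ d) (h0 : ((a.choose a' : ℕ) : ZMod 3) * (b.choose b' : ℕ) *
      (c.choose c' : ℕ) * (d.choose d' : ℕ) ≠ 0)
    (hw : wE 3 (mk4 a b c d) + R.deg j (gen i) < 242) : Led R gen n j i (mk4 a b c d) := by
  obtain ⟨a, rfl⟩ := Nat.exists_eq_add_of_le' ha
  obtain ⟨b, rfl⟩ := Nat.exists_eq_add_of_le' hb
  obtain ⟨c, rfl⟩ := Nat.exists_eq_add_of_le' hc
  obtain ⟨d, rfl⟩ := Nat.exists_eq_add_of_le' hd
  obtain ⟨l, y, h1, h2⟩ := exists_row (R := R) (j := j) u (mk4 a b c d)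
  refine ⟨l, ?_, fun i' hi' E' h3 h4 => ?_⟩
  · rw [h2, lead_pivot _ _ _ _ _ _ _ _ _ fun K h3 h4 => by
      rw [h1, h.2 i hi K (by rw [h3]) (Or.inr ⟨rfl, h4⟩)], h1]
    simp only [Nat.choose_symm_add] at h0 ⊢
    exact mul_ne_zero h0 h.1
  · rw [h2, lead_zero _ (by omega) fun K h5 h6 => ?_]
    rw [← mk4_add, wE, wE, map_add] at h3
    rw [← mk4_add, ph, ph, map_add] at h4
    unfold wE at *
    unfold ph at *
    rw [h1, h.2 i' hi' K (by unfold wE; omega)
      (h4.imp_right fun h7 => ⟨h7.1, by unfold ph; omega⟩)]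

theorem rk_of_led {ι : Type} (S : Finset ι) (g : ι → ℕ) (E : ι → ℕ →₀ ℕ) (hg : ∀ x ∈ S, g x < n)
    (hw : ∀ x ∈ S, wE 3 (E x) + R.deg j (gen (g x)) = e) (hb : ∀ x ∈ S, ph (E x) < 4096)
    (hi : ∀ x ∈ S, ∀ y ∈ S, g x = g y → ph (E x) = ph (E y) → x = y)
    (hl : ∀ x ∈ S, Led R gen n j (g x) (E x)) : Rk (D R j) (R.PV j e) S.card := by
  refine ⟨S, inferInstance, fun x => bas (gen (g x)) (E x), Fintype.card_coe S,
    fun x => bas_mem (hw x x.2), li_of_echelon _ (fun x => 4096 * (n - g x) + ph (E x))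
      (fun x y h => ?_) fun x => ?_⟩
  · have := hb x x.2
    have := hb y y.2
    have := hg x x.2
    have := hg y y.2
    dsimp only at h
    exact Subtype.ext (hi x x.2 y y.2 (by omega) (by omega))
  · obtain ⟨l, h1, h2⟩ := hl x x.2
    refine ⟨l, h1, fun y h => h2 _ (hg y y.2) _ ((hw y y.2).trans (hw x x.2).symm) ?_⟩
    have := hb x x.2
    have := hb y y.2
    have := hg x x.2
    have := hg y y.2
    omega

end Vale.Agent.P236X

end
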