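import Vale.Agent.P236X.Chk
import Vale.Agent.P236B.Sem

/-!
# P236X: coordinates of the second kind modulo all `v_i`
-/

namespace Vale.Agent.P236X

open Vale.Agent.P236B Vale.Agent.P257.H80 MvPolynomial Finset

theorem kk_eq (a b c d : ℕ) : kk a b c d = mk4 a b c d := by
  rw [kk, mk4]
  abel

theorem tau_X : tau (vmk 0) (X 0 : P) = X 0 ∧ tau (vmk 0) (X 1 : P) = X 1 ∧
    tau (vmk 0) (X 2 : P) = X 1 * X 0 ^ 9 + X 2 ∧
      tau (vmk 0) (X 3 : P) = X 2 * X 0 ^ 27 + X 3 := by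
  simp [tau, tauA, comp_v0, cmp_v0, Finset.sum_range_succ, add_comm]

/-- the values on the monomials from the coordinates of the second kind -/
noncomputable def tauV (x : ℕ → ℕ → ℕ → ℕ → ℕ) (a b c d : ℕ) : ℕ :=
  sumN (Nat.succ d) fun p => mulZ (ch d p) (sumN (Nat.succ c) fun q => mulZ (ch c q)
    (x (a + 27 * p + 9 * q) (b + q) (c - q + p) (d - p)))

theorem coeff_ofX {Y : Fn (ZMod 3)} {x : ℕ → ℕ → ℕ → ℕ → ℕ}
    (h : ∀ a b c d, coeff 0 (Y (mk4 a b c d)) = x a b c d) (a b c d : ℕ) :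
    coeff 0 (ofX Y (mk4 a b c d)) = tauV x a b c d := by
  have h1 := act_ofX (RingHom.id _) (vmk 0) Y (monomial (mk4 a b c d) 1)
  rw [act_monomial, one_mul, kx_zero, RingHom.id_apply] at h1
  simp only [h1, tauV, sumN_eq, mulZ_eq, Nat.cast_sum, Nat.cast_mul, ch_eq, ← h]
  rw [monomial_mk4, RingHom.map_mul, RingHom.map_mul, RingHom.map_mul, RingHom.map_pow,
    RingHom.map_pow, RingHom.map_pow, RingHom.map_pow, tau_X.1, tau_X.2.1, tau_X.2.2.1,
    tau_X.2.2.2, add_pow _ (X 3), Finset.mul_sum, map_sum]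
  refine Finset.sum_congr rfl fun p _ => ?_
  rw [add_pow, Finset.mul_sum, Finset.sum_mul, map_sum, Finset.mul_sum]
  refine Finset.sum_congr rfl fun q _ => ?_
  rw [show (X 0 ^ a * X 1 ^ b * ((X 1 * X 0 ^ 9) ^ q * X 2 ^ (c - q) * (c.choose q : P)) *
      ((X 2 * X 0 ^ 27) ^ p * X 3 ^ (d - p) * (d.choose p : P)) : P) =
      C ((d.choose p : ZMod 3) * (c.choose q : ZMod 3)) *
        monomial (mk4 (a + 27 * p + 9 * q) (b + q) (c - q + p) (d - p)) 1 by
    rw [monomial_mk4, map_mul, map_natCast, map_natCast]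
    ring, act_C_mul, act_monomial, one_mul, kx_zero, RingHom.id_apply, mul_assoc]

end Vale.Agent.P236X
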